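import Vale.Agent.P273.H578.Col
import Vale.Agent.P273.H214.OneZ

/-!
# P273, row ASY0 (helper965): marks of one type that are close have the same form, gauge level

* `th_close`: two finite marks that are close at the scale of the roots;
* `th_root`: a mark in the disc of a root;
* `th_inf`: two marks near infinity on the same sheet.
-/

open Set Filter Topology Metric
open scoped ContDiff

noncomputable section

namespace Vale.Agent.P273.H965

open H973 H681 H95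
open H578 (Pt Close rad rad_pos Hs fb Same)
open H214 (FlatFam oneOf hh)

variable {S : L → Bool} {e : E} {v : L → ℂ} {t : Bool} {k l : Fin 7} {ξ : Fin 6 → ℝ}

theorem th_close (O : One) (hX : e.1 ∈ XX) (hv : OnC S (rts e.1) e.2 v) (hkl : k ≠ l)
    (hk : fin S t e k) (hl : fin S t e l)
    (hc : ∀ n ≤ 6, Close (rad n) e.1 (PP S t e v k) (PP S t e v l) ∧
      Close (rad n) e.1 (PP S t e v l) (PP S t e v k)) (hξ : IsCl ξ) :
    th O (k, t) ξ S e v = th O (l, t) ξ S e v := by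
  have hV := brE_BrE hX hv
  have hself := brE_self hv
  rw [th_good O ξ hX hv, th_good O ξ hX hv]
  rcases lt_or_gt_of_ne hkl with h | h
  · exact ((H578.thE_close O hV h hl hk (by
      rw [hself]; exact (hc l (Nat.lt_succ_iff.1 l.2)).2)).self_of_nhds ξ hξ).symm
  · exact (H578.thE_close O hV h hk hl (by
      rw [hself]; exact (hc k (Nat.lt_succ_iff.1 k.2)).1)).self_of_nhds ξ hξ

/-! ### the disc of a root -/

theorem gfun_root (Φ : FlatFam) {V : E → L → ℂ} (hV : BrE S V e) (hS : S (k, t) = false)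
    (j : Fin 6) (h : ‖e.2 (k, t) - e.1 j‖ < Real.sqrt (hh e.1 j) / 8 / 2 ^ (k : ℕ)) :
    ∀ᶠ e' in 𝓝 e, ∀ ξ, IsCl ξ → gfun (cE S t V) (pE (oneOf Φ) ξ S t V) k e' = 0 := by
  have hb : e.1 ∈ H214.Cf := H214.sub_XX hV.mem
  have h1 : ContinuousAt (fun e' : E => Real.sqrt (hh e'.1 j) / 8 / 2 ^ (k : ℕ)) e := by
    have h2 : ContinuousAt (fun e' : E => hh e'.1 j) e :=
      ContinuousAt.comp (f := Prod.fst) (H214.contDiffAt_hh hb j).continuousAt continuousAt_fst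
    exact ((Real.continuous_sqrt.continuousAt.comp h2).div_const _).div_const _
  have h2 : ContinuousAt (fun e' : E => ‖e'.2 (k, t) - e'.1 j‖) e := by
    have : Continuous (fun e' : E => ‖e'.2 (k, t) - e'.1 j‖) := by fun_prop
    exact this.continuousAt
  filter_upwards [h2.eventually_lt h1 h, hV.ev] with e' h3 h4 ξ hξ
  have hX : (PP S t e' (V e') k).1 = e'.2 (k, t) := by
    unfold PP Xp
    simp [hS]
  refine H578.gf_root (fun l hl => (pt_PP h4.2.1 hl).1) j (ρ := Real.sqrt (hh e'.1 j) / 8)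
    (fun x' hx' y' hy' w => ?_) (by rw [hX]; exact h3)
  show (oneOf Φ).η ξ false (e'.1, x') y' (0, w) = 0
  rw [H214.oneOf_root Φ ξ e'.1 x' y' j hξ h4.1 ⟨by rw [pol_false]; exact hy'.1, hy'.2⟩ ?_]
  · rfl
  · have h5 : 8 * ‖x' - e'.1 j‖ < Real.sqrt (hh e'.1 j) := by linarith
    have h6 := (Real.lt_sqrt (by positivity)).1 h5
    calc 64 * ‖x' - e'.1 j‖ ^ 2 = (8 * ‖x' - e'.1 j‖) ^ 2 := by ring
      _ < _ := h6

/-- in the disc of a root the form vanishes -/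
theorem th_root (Φ : FlatFam) (hX : e.1 ∈ XX) (hv : OnC S (rts e.1) e.2 v)
    (hS : S (k, t) = false) (j : Fin 6)
    (h : ‖e.2 (k, t) - e.1 j‖ < Real.sqrt (hh e.1 j) / 8 / 2 ^ (k : ℕ)) (hξ : IsCl ξ) :
    th (oneOf Φ) (k, t) ξ S e v = 0 := by
  have hV := brE_BrE hX hv
  have hself := brE_self hv
  rw [th_good _ ξ hX hv,
    (H578.thE_region (oneOf Φ) (gfun_root Φ hV hS j h)).self_of_nhds ξ hξ]
  unfold etaE
  rw [hself, hS]
  have h1 : (oneOf Φ).η ξ false (prj (k, t) e) (v (k, t)) = 0 := by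
    rw [prj_apply]
    refine H214.oneOf_root Φ ξ e.1 _ _ j hξ hX ?_ ?_
    · have := hv (k, t)
      rw [hS] at this
      exact this
    · have h2 : Real.sqrt (hh e.1 j) / 8 / 2 ^ (k : ℕ) ≤ Real.sqrt (hh e.1 j) / 8 :=
        div_le_self (by positivity) (one_le_pow₀ (by norm_num))
      have h5 : 8 * ‖e.2 (k, t) - e.1 j‖ < Real.sqrt (hh e.1 j) := by linarith
      have h6 := (Real.lt_sqrt (by positivity)).1 h5
      calc 64 * ‖e.2 (k, t) - e.1 j‖ ^ 2 = (8 * ‖e.2 (k, t) - e.1 j‖) ^ 2 := by ring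
        _ < _ := h6
  rw [h1, ContinuousLinearMap.zero_comp]

/-! ### near infinity -/

theorem gfun_infty (Φ : FlatFam) {V : E → L → ℂ} (hV : BrE S V e) (hS : S (k, t) = true)
    (h : 2 ^ 7 * H604.Rr e.1 * ‖e.2 (k, t)‖ < 1) :
    ∀ᶠ e' in 𝓝 e, ∀ ξ, IsCl ξ → gfun (cE S t V) (pE (oneOf Φ) ξ S t V) k e' = 0 := by
  have h1 : ContinuousAt (fun e' : E => 2 ^ 7 * H604.Rr e'.1 * ‖e'.2 (k, t)‖) e := by
    have h2 : Continuous (fun e' : E => H604.Rr e'.1) :=
      H604.contDiff_Rr.continuous.comp continuous_fst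
    have h3 : Continuous (fun e' : E => ‖e'.2 (k, t)‖) := by fun_prop
    exact ((continuous_const.mul h2).mul h3).continuousAt
  filter_upwards [h1.eventually (gt_mem_nhds h), hV.ev] with e' h3 h4 ξ hξ
  by_cases h7 : fin S t e' k
  · have hR := H604.Rr_pos e'.1
    have h9 : e'.2 (k, t) ≠ 0 := fun h9 => h7 ⟨hS, h9⟩
    have h10 : (PP S t e' (V e') k).1 = (e'.2 (k, t))⁻¹ := by
      unfold PP Xp
      simp [hS]
    refine H578.gf_far (R := 2 * H604.Rr e'.1) (fun l hl => (pt_PP h4.2.1 hl).1) (by positivity)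
      (fun i => ?_) (fun x' hx' y' hy' w => ?_) ?_
    · have := H604.norm_le_Rr e'.1 i
      linarith
    · show (oneOf Φ).η ξ false (e'.1, x') y' (0, w) = 0
      rw [H214.oneOf_far' Φ ξ e'.1 x' y' hξ h4.1 ⟨by rw [pol_false]; exact hy'.1, hy'.2⟩ hx']
      simp
    · rw [h10, norm_inv]
      have h11 : (2 : ℝ) ^ (k : ℕ) ≤ 2 ^ 6 :=
        pow_le_pow_right₀ (by norm_num) (Nat.lt_succ_iff.1 k.2)
      have h12 : 0 < ‖e'.2 (k, t)‖ := norm_pos_iff.2 h9
      rw [lt_inv_comm₀ (by positivity) h12, ← one_div, lt_div_iff₀ (by positivity)]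
      calc ‖e'.2 (k, t)‖ * (2 ^ (k : ℕ) * (2 * H604.Rr e'.1))
          ≤ ‖e'.2 (k, t)‖ * (2 ^ 6 * (2 * H604.Rr e'.1)) := by gcongr
        _ = 2 ^ 7 * H604.Rr e'.1 * ‖e'.2 (k, t)‖ := by ring
        _ < 1 := h3
  · exact H578.gf_not k h7

theorem th_infty_eq (Φ : FlatFam) (hX : e.1 ∈ XX) (hv : OnC S (rts e.1) e.2 v)
    (hS : S (k, t) = true) (h : 2 ^ 7 * H604.Rr e.1 * ‖e.2 (k, t)‖ < 1) (hξ : IsCl ξ) :
    th (oneOf Φ) (k, t) ξ S e v = (if 0 < (v (k, t)).re then (1 : ℝ) else -1) •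
      (H604.Cinf (Φ.η ξ) (Φ.A ξ) e.1).comp (ContinuousLinearMap.fst ℝ C6 (L → ℂ)) := by
  have hV := brE_BrE hX hv
  have hself := brE_self hv
  rw [th_good _ ξ hX hv,
    (H578.thE_region (oneOf Φ) (gfun_infty Φ hV hS h)).self_of_nhds ξ hξ]
  unfold etaE
  rw [hself, hS, prj_apply]
  have hR := H604.Rr_pos e.1
  rw [H214.oneOf_far Φ ξ e.1 _ _ hξ hX (by have := hv (k, t); rw [hS] at this; exact this)
    (by
      have h1 : 0 ≤ H604.Rr e.1 * ‖e.2 (k, t)‖ := by positivity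
      nlinarith)]
  rfl

/-- two marks near infinity on the same sheet -/
theorem th_inf (Φ : FlatFam) (hX : e.1 ∈ XX) (hv : OnC S (rts e.1) e.2 v)
    (hk : S (k, t) = true) (hl : S (l, t) = true)
    (hk' : 2 ^ 7 * H604.Rr e.1 * ‖e.2 (k, t)‖ < 1) (hl' : 2 ^ 7 * H604.Rr e.1 * ‖e.2 (l, t)‖ < 1)
    (hs : 0 < (v (k, t)).re ↔ 0 < (v (l, t)).re) (hξ : IsCl ξ) :
    th (oneOf Φ) (k, t) ξ S e v = th (oneOf Φ) (l, t) ξ S e v := by
  rw [th_infty_eq Φ hX hv hk hk' hξ, th_infty_eq Φ hX hv hl hl' hξ]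
  simp only [hs]

end Vale.Agent.P273.H965
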