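import Vale.Agent.P273.H578.Inst
import Vale.Agent.P273.H214.OneZ
import Vale.Agent.P273.H95.Wall

/-!
# P273, row ASY0 (helper965): close marks, plane geometry
-/

open Set Filter Topology Metric
open scoped ContDiff

noncomputable section

namespace Vale.Agent.P273.H965

open H578 (Pt Close rad rad_pos rad_le Hs fb Same Off)
open H214 (hh)

/-! ### points close at the scale of the roots -/

theorem rad_six_le {n : ℕ} (hn : n ≤ 6) : rad 6 ≤ rad n := by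
  unfold rad
  exact pow_le_pow_of_le_one (by norm_num) (by norm_num) (by omega)

theorem sqrt_six_le : Real.sqrt (Fintype.card (Fin 6)) ≤ 3 := by
  rw [Fintype.card_fin]
  exact Real.sqrt_le_iff.2 ⟨by norm_num, by norm_num⟩

theorem div_three_le_Hs {b : Fin 6 → ℂ} {x : ℂ} {r : ℝ} (hr : 0 < r)
    (h : ∀ j, r ≤ ‖x - b j‖) : r / 3 ≤ Hs b x := by
  refine le_trans ?_ (H578.le_Hs hr h)
  refine div_le_div_of_nonneg_left hr.le ?_ sqrt_six_le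
  refine Real.sqrt_pos.2 ?_
  rw [Fintype.card_fin]
  norm_num

theorem close_both {b : Fin 6 → ℂ} {p q : ℂ × ℂ} {r : ℝ} (hr : 0 < r)
    (h : ∀ j, r ≤ ‖p.1 - b j‖) (hx : ‖p.1 - q.1‖ ≤ rad 6 / 20 * r) (hs : Same p.2 q.2) {n : ℕ}
    (hn : n ≤ 6) : Close (rad n) b p q ∧ Close (rad n) b q p := by
  have h6 := rad_six_le hn
  have h0 := rad_pos 6
  have h1 := rad_le 6
  have hq : ∀ j, r / 2 ≤ ‖q.1 - b j‖ := by
    intro j
    have h2 := h j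
    have h3 : ‖p.1 - b j‖ ≤ ‖p.1 - q.1‖ + ‖q.1 - b j‖ := norm_sub_le_norm_sub_add_norm_sub _ _ _
    nlinarith
  have e1 := div_three_le_Hs hr h
  have e2 := div_three_le_Hs (half_pos hr) hq
  have key : rad 6 / 20 * r < rad n / 2 * (r / 2 / 3) := by
    have h7 : rad 6 * r ≤ rad n * r := mul_le_mul_of_nonneg_right h6 hr.le
    have h8 : 0 < rad 6 * r := by positivity
    nlinarith
  have hn0 : 0 < rad n := rad_pos n
  constructor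
  · refine ⟨hs, hx.trans_lt (key.trans_le ?_)⟩
    refine mul_le_mul_of_nonneg_left ?_ (by positivity)
    linarith
  · refine ⟨H578.same_comm.1 hs, ?_⟩
    rw [norm_sub_rev]
    exact hx.trans_lt (key.trans_le (mul_le_mul_of_nonneg_left e2 (by positivity)))

theorem same_of_ratio {y y' : ℂ} (hy : y ≠ 0) (h : ‖y' / y - 1‖ < 1) : Same y y' :=
  (H578.same_iff hy).2 (H578.re_pos_of_norm h)

theorem norm_snd_ge {b : Fin 6 → ℂ} {p : ℂ × ℂ} {r : ℝ} (hp : Pt b p) (hr : 0 < r)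
    (h : ∀ j, r ≤ ‖p.1 - b j‖) : r ^ 3 ≤ ‖p.2‖ := by
  have h1 : (r ^ 3) ^ 2 ≤ ‖p.2‖ ^ 2 := by
    rw [← norm_pow, hp.1, fb, norm_prod]
    calc (r ^ 3) ^ 2 = ∏ _j : Fin 6, r := by simp [← pow_mul]
      _ ≤ ∏ j, ‖p.1 - b j‖ := Finset.prod_le_prod (fun _ _ => hr.le) fun j _ => h j
  exact le_of_sq_le_sq h1 (norm_nonneg _)

theorem same_of_lt {b : Fin 6 → ℂ} {p q : ℂ × ℂ} {r : ℝ} (hp : Pt b p) (hr : 0 < r)
    (h : ∀ j, r ≤ ‖p.1 - b j‖) (hy : ‖p.2 - q.2‖ < r ^ 3) : Same p.2 q.2 := by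
  have h1 := norm_snd_ge hp hr h
  refine same_of_ratio hp.2 ?_
  have h2 : q.2 / p.2 - 1 = (q.2 - p.2) / p.2 := by
    have := hp.2
    field_simp
  rw [h2, norm_div, div_lt_one (norm_pos_iff.2 hp.2), norm_sub_rev]
  linarith

/-! ### numbers close to one -/

theorem near_mul {z w : ℂ} {a c : ℝ} (hz : ‖z - 1‖ ≤ a) (hw : ‖w - 1‖ ≤ c) :
    ‖z * w - 1‖ ≤ a + c + a * c := by
  have h1 : z * w - 1 = (z - 1) + (w - 1) + (z - 1) * (w - 1) := by ring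
  rw [h1]
  have h2 : ‖(z - 1) * (w - 1)‖ ≤ a * c := by
    rw [norm_mul]
    exact mul_le_mul hz hw (norm_nonneg _) ((norm_nonneg _).trans hz)
  have h3 := norm_add₃_le (a := z - 1) (b := w - 1) (c := (z - 1) * (w - 1))
  linarith

theorem near_div {z w : ℂ} {c : ℝ} (hz : ‖z - 1‖ ≤ c) (hw : ‖w - 1‖ ≤ c) (hc : c ≤ 1 / 2) :
    ‖z / w - 1‖ ≤ 4 * c := by
  have h1 : 1 / 2 ≤ ‖w‖ := by
    have := norm_sub_norm_le (1 : ℂ) (1 - w)
    rw [norm_one, sub_sub_cancel, norm_sub_rev] at this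
    linarith
  have hw0 : w ≠ 0 := fun h => by rw [h, norm_zero] at h1; norm_num at h1
  have h2 : z / w - 1 = ((z - 1) - (w - 1)) / w := by
    field_simp
    ring
  rw [h2, norm_div, div_le_iff₀ (by linarith)]
  have h3 := norm_sub_le (z - 1) (w - 1)
  have h4 : 0 ≤ c := (norm_nonneg _).trans hz
  nlinarith

/-! ### necks -/

theorem low_big {X Y s : ℂ} (hs : s ≠ 0) (hXY : ‖X‖ * ‖Y‖ = ‖s‖ ^ 2) (h8 : 8 * ‖s‖ ≤ ‖X‖) :
    ‖X‖ / 4 ≤ ‖(X + Y) / 2 - s‖ := by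
  have hs0 : 0 < ‖s‖ := norm_pos_iff.2 hs
  have h1 : ‖Y‖ ≤ ‖X‖ / 64 := by
    have h0 : 0 < ‖X‖ := by linarith
    have h2 : ‖s‖ ^ 2 ≤ (‖X‖ / 8) ^ 2 := pow_le_pow_left₀ (norm_nonneg _) (by linarith) 2
    rw [← hXY] at h2
    have h3 : ‖X‖ * ‖Y‖ ≤ ‖X‖ * (‖X‖ / 64) := by nlinarith
    exact le_of_mul_le_mul_left h3 h0
  have h2 : X / 2 = ((X + Y) / 2 - s) + (s - Y / 2) := by ring
  have h3 : ‖X‖ / 2 ≤ ‖(X + Y) / 2 - s‖ + ‖s - Y / 2‖ := by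
    have := norm_add_le ((X + Y) / 2 - s) (s - Y / 2)
    rw [← h2, norm_div] at this
    simpa using this
  have h4 : ‖s - Y / 2‖ ≤ ‖s‖ + ‖Y‖ / 2 := by
    have := norm_sub_le s (Y / 2)
    rw [norm_div] at this
    simpa using this
  linarith [norm_nonneg X]

/-- the distance to a root of the pair -/
theorem low_pair {X Y s : ℂ} {c : ℝ} (hc : 0 < c) (hc1 : c ≤ 1) (hs : s ≠ 0)
    (hXY : ‖X‖ * ‖Y‖ = ‖s‖ ^ 2) (h : c * ‖s‖ ≤ ‖(X + Y) / 2 - s‖) :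
    c / 8 * max ‖X‖ ‖Y‖ ≤ ‖(X + Y) / 2 - s‖ := by
  by_cases h8 : 8 * ‖s‖ ≤ max ‖X‖ ‖Y‖
  · have h1 : max ‖X‖ ‖Y‖ / 4 ≤ ‖(X + Y) / 2 - s‖ := by
      rcases le_total ‖Y‖ ‖X‖ with h2 | h2
      · rw [max_eq_left h2] at h8 ⊢
        exact low_big hs hXY h8
      · rw [max_eq_right h2] at h8 ⊢
        rw [add_comm X Y]
        exact low_big hs (by rw [mul_comm]; exact hXY) h8
    have h2 : 0 ≤ max ‖X‖ ‖Y‖ := le_max_of_le_left (norm_nonneg _)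
    nlinarith
  · push Not at h8
    nlinarith

/-- near a root of the pair the neck coordinates are small -/
theorem max_lt_of_near {X Y s : ℂ} (hs : s ≠ 0) (hXY : ‖X‖ * ‖Y‖ = ‖s‖ ^ 2)
    (h : ‖(X + Y) / 2 - s‖ < 2 * ‖s‖) : max ‖X‖ ‖Y‖ < 8 * ‖s‖ := by
  by_contra h8
  push Not at h8
  have h1 : max ‖X‖ ‖Y‖ / 4 ≤ ‖(X + Y) / 2 - s‖ := by
    rcases le_total ‖Y‖ ‖X‖ with h2 | h2
    · rw [max_eq_left h2] at h8 ⊢
      exact low_big hs hXY h8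
    · rw [max_eq_right h2] at h8 ⊢
      rw [add_comm X Y]
      exact low_big hs (by rw [mul_comm]; exact hXY) h8
  linarith

/-- the distance to all the roots -/
theorem low_all {b : Fin 6 → ℂ} {a d X Y : ℂ} {c : ℝ} (hc : 0 < c) (hc1 : c ≤ 1) (hd : d ≠ 0)
    (hb : ∀ j, b j = a + d ∨ b j = a - d ∨ 15 / 8 ≤ ‖b j - a‖) (hXY : X * Y = d ^ 2)
    (hX : ‖X‖ ≤ 1 / 8) (hY : ‖Y‖ ≤ 1 / 8) (h1 : c * ‖d‖ ≤ ‖a + (X + Y) / 2 - (a + d)‖)
    (h2 : c * ‖d‖ ≤ ‖a + (X + Y) / 2 - (a - d)‖) (j : Fin 6) :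
    c / 8 * max ‖X‖ ‖Y‖ ≤ ‖a + (X + Y) / 2 - b j‖ := by
  have hn : ‖X‖ * ‖Y‖ = ‖d‖ ^ 2 := by rw [← norm_mul, hXY, norm_pow]
  rcases hb j with h | h | h
  · rw [h]
    have e : a + (X + Y) / 2 - (a + d) = (X + Y) / 2 - d := by ring
    rw [e] at h1 ⊢
    exact low_pair hc hc1 hd hn h1
  · rw [h]
    have e : a + (X + Y) / 2 - (a - d) = (X + Y) / 2 - (-d) := by ring
    rw [e] at h2 ⊢
    refine low_pair hc hc1 (neg_ne_zero.2 hd) (by rw [norm_neg]; exact hn) ?_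
    rw [norm_neg]
    exact h2
  · have h3 : ‖b j - a‖ ≤ ‖a + (X + Y) / 2 - b j‖ + ‖(X + Y) / 2‖ := by
      have h4 : b j - a = -(a + (X + Y) / 2 - b j) + (X + Y) / 2 := by ring
      have h5 := norm_add_le (-(a + (X + Y) / 2 - b j)) ((X + Y) / 2)
      rw [← h4, norm_neg] at h5
      exact h5
    have h6 : ‖(X + Y) / 2‖ ≤ 1 / 8 := by
      rw [norm_div]
      have := norm_add_le X Y
      simp only [Complex.norm_ofNat]
      linarith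
    have h7 : max ‖X‖ ‖Y‖ ≤ 1 / 8 := max_le hX hY
    have h8 : 0 ≤ max ‖X‖ ‖Y‖ := le_max_of_le_left (norm_nonneg _)
    nlinarith

/-- the positions of two close marks -/
theorem pos_close {a X Y Y' P : ℂ} {δ : ℝ} (hδ : δ ≤ 1 / 2) (hP : ‖P - 1‖ ≤ δ) (hY : Y = P * Y') :
    ‖Y'‖ ≤ 2 * ‖Y‖ ∧
      ‖a + (X + Y) / 2 - (a + (P * X + Y') / 2)‖ ≤ 3 / 2 * δ * max ‖X‖ ‖Y‖ := by
  have h0 : 0 ≤ δ := (norm_nonneg _).trans hP
  have h1 : 1 / 2 ≤ ‖P‖ := by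
    have := norm_sub_norm_le (1 : ℂ) (1 - P)
    rw [norm_one, sub_sub_cancel, norm_sub_rev] at this
    linarith
  have h2 : ‖Y'‖ ≤ 2 * ‖Y‖ := by
    rw [hY, norm_mul]
    nlinarith [norm_nonneg Y']
  refine ⟨h2, ?_⟩
  have h3 : a + (X + Y) / 2 - (a + (P * X + Y') / 2) = (P - 1) * ((Y' - X) / 2) := by
    rw [hY]
    ring
  rw [h3, norm_mul]
  have h4 : ‖(Y' - X) / 2‖ ≤ 3 / 2 * max ‖X‖ ‖Y‖ := by
    rw [norm_div]
    have h5 := norm_sub_le Y' X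
    have h6 := le_max_left ‖X‖ ‖Y‖
    have h7 := le_max_right ‖X‖ ‖Y‖
    simp only [Complex.norm_ofNat]
    linarith
  calc ‖P - 1‖ * ‖(Y' - X) / 2‖ ≤ δ * (3 / 2 * max ‖X‖ ‖Y‖) :=
        mul_le_mul hP h4 (norm_nonneg _) h0
    _ = _ := by ring

/-- the sheets of two close marks -/
theorem sheet_close {a d X Y Y' P : ℂ} {δ m : ℝ} (hm : 0 < m) (hδ : δ ≤ 1 / 2)
    (hP : ‖P - 1‖ ≤ δ) (hY : Y = P * Y') (hXY : X * Y = d ^ 2)
    (h1 : m ≤ ‖a + (X + Y) / 2 - (a + d)‖) (h2 : m ≤ ‖a + (X + Y) / 2 - (a - d)‖)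
    (hM : 3 * δ * max ‖X‖ ‖Y‖ ≤ 1 / 10 * (2 * m)) :
    X - Y ≠ 0 ∧ ‖(P * X - Y') / (X - Y) - 1‖ ≤ 1 / 10 := by
  have h0 : 0 ≤ δ := (norm_nonneg _).trans hP
  have h3 : 2 * m ≤ ‖X - Y‖ := by
    have h4 : (X - Y) ^ 2 = 4 * ((a + (X + Y) / 2 - (a + d)) * (a + (X + Y) / 2 - (a - d))) := by
      linear_combination (-4) * hXY
    have h5 : (2 * m) ^ 2 ≤ ‖X - Y‖ ^ 2 := by
      rw [← norm_pow, h4, norm_mul, norm_mul, Complex.norm_ofNat]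
      nlinarith [mul_le_mul h1 h2 hm.le (norm_nonneg _)]
    exact le_of_sq_le_sq h5 (norm_nonneg _)
  have h6 : 0 < ‖X - Y‖ := by linarith
  have h7 : X - Y ≠ 0 := norm_pos_iff.1 h6
  refine ⟨h7, ?_⟩
  have h8 : (P * X - Y') / (X - Y) - 1 = (P - 1) * (X + Y') / (X - Y) := by
    rw [hY] at h7 ⊢
    field_simp
    ring
  obtain ⟨h9, -⟩ := pos_close (a := 0) (X := X) hδ hP hY
  have h10 : ‖X + Y'‖ ≤ 3 * max ‖X‖ ‖Y‖ := by
    have h5 := norm_add_le X Y'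
    have h6 := le_max_left ‖X‖ ‖Y‖
    have h7 := le_max_right ‖X‖ ‖Y‖
    linarith
  rw [h8, norm_div, norm_mul, div_le_iff₀ h6]
  calc ‖P - 1‖ * ‖X + Y'‖ ≤ δ * (3 * max ‖X‖ ‖Y‖) := mul_le_mul hP h10 (norm_nonneg _) h0
    _ = 3 * δ * max ‖X‖ ‖Y‖ := by ring
    _ ≤ 1 / 10 * (2 * m) := hM
    _ ≤ 1 / 10 * ‖X - Y‖ := by linarith

/-- the radius of the disc of a root -/
theorem le_sqrt_hh {b : Fin 6 → ℂ} {j : Fin 6} {ρ : ℝ} (hρ : 0 < ρ)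
    (h : ∀ i ≠ j, ρ ≤ ‖b i - b j‖) : ρ / 3 ≤ Real.sqrt (hh b j) := by
  refine Real.le_sqrt_of_sq_le ?_
  have h1 : ∑ i ∈ Finset.univ.erase j, (‖b i - b j‖ ^ 2)⁻¹ ≤ 5 * (ρ ^ 2)⁻¹ := by
    calc ∑ i ∈ Finset.univ.erase j, (‖b i - b j‖ ^ 2)⁻¹
        ≤ ∑ _i ∈ Finset.univ.erase j, (ρ ^ 2)⁻¹ := by
          refine Finset.sum_le_sum fun i hi => ?_
          have := h i (Finset.mem_erase.1 hi).1
          gcongr
      _ = 5 * (ρ ^ 2)⁻¹ := by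
          rw [Finset.sum_const, Finset.card_erase_of_mem (Finset.mem_univ j), Finset.card_univ,
            Fintype.card_fin, nsmul_eq_mul]
          norm_num
  have h2 : 0 < ∑ i ∈ Finset.univ.erase j, (‖b i - b j‖ ^ 2)⁻¹ := by
    refine Finset.sum_pos (fun i hi => ?_) ?_
    · have := h i (Finset.mem_erase.1 hi).1
      have : 0 < ‖b i - b j‖ := by linarith
      positivity
    · rw [← Finset.card_pos, Finset.card_erase_of_mem (Finset.mem_univ j), Finset.card_univ,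
        Fintype.card_fin]
      norm_num
  unfold hh
  rw [le_inv_comm₀ (by positivity) h2]
  refine h1.trans ?_
  rw [div_pow, inv_div]
  have : 0 < ρ ^ 2 := by positivity
  rw [mul_comm, ← div_eq_inv_mul]
  gcongr
  norm_num

end Vale.Agent.P273.H965
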