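import Vale.Agent.P273.H562.AsyDefs
import Vale.Agent.P273.H965.ColB

/-!
# P273, row ASY0 (helper965): roots and marks of the log chart at the theta point
-/

open Set Filter Topology Metric
open scoped ContDiff

noncomputable section

namespace Vale.Agent.P273.H965

open H681 H95 H732 H562

/-! ### the roots -/

/-- half difference of the pair `k` -/
def dL (y α : Fin 3 → ℝ) (k : Fin 3) : ℂ :=
  (1 / 16 : ℂ) * Complex.exp ((-(y k : ℂ) + (α k : ℂ) * Complex.I) / 2)

theorem rootsL_eq (y α : Fin 3 → ℝ) : rootsL y α = H828.th (dL y α) := rfl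

theorem norm_dL (y α : Fin 3 → ℝ) (k : Fin 3) :
    ‖dL y α k‖ = 1 / 16 * Real.exp (-(y k) / 2) := by
  rw [dL, norm_mul, Complex.norm_exp]
  have h : ((-(y k : ℂ) + (α k : ℂ) * Complex.I) / 2).re = -(y k) / 2 := by simp
  rw [h]
  norm_num

theorem dL_sq (y α : Fin 3 → ℝ) (k : Fin 3) :
    dL y α k ^ 2 = (1 / 16) ^ 2 * Complex.exp (-(y k : ℂ) + (α k : ℂ) * Complex.I) := by
  rw [dL, mul_pow, ← Complex.exp_nat_mul]
  congr 2
  push_cast
  ring

theorem dL_ne (y α : Fin 3 → ℝ) (k : Fin 3) : dL y α k ≠ 0 := by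
  unfold dL
  exact mul_ne_zero (by norm_num) (Complex.exp_ne_zero _)

theorem dL_small {y : Fin 3 → ℝ} (α : Fin 3 → ℝ) {k : Fin 3} (h : 14 ≤ y k) :
    ‖dL y α k‖ ≤ 1 / 128 := by
  rw [norm_dL]
  have h1 := Real.add_one_le_exp (y k / 2)
  have h2 : Real.exp (-(y k) / 2) = (Real.exp (y k / 2))⁻¹ := by
    rw [← Real.exp_neg]
    congr 1
    ring
  have h3 : (Real.exp (y k / 2))⁻¹ ≤ 8⁻¹ := inv_anti₀ (by norm_num) (by linarith)
  rw [h2]
  linarith

theorem root_cases (y α : Fin 3 → ℝ) (j : Fin 6) : ∃ (l : Fin 3) (s : ℂ), (s = 1 ∨ s = -1) ∧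
    rootsL y α j = ctr l + s * dL y α l := by
  rw [rootsL_eq]
  fin_cases j
  · exact ⟨0, -1, Or.inr rfl, by simp [H828.th, ctr]; ring⟩
  · exact ⟨0, 1, Or.inl rfl, by simp [H828.th, ctr]⟩
  · exact ⟨1, -1, Or.inr rfl, by simp [H828.th, ctr]; ring⟩
  · exact ⟨1, 1, Or.inl rfl, by simp [H828.th, ctr]; ring⟩
  · exact ⟨2, -1, Or.inr rfl, by simp [H828.th, ctr]; ring⟩
  · exact ⟨2, 1, Or.inl rfl, by simp [H828.th, ctr]; ring⟩

theorem root_ex (y α : Fin 3 → ℝ) (l : Fin 3) {s : ℂ} (hs : s = 1 ∨ s = -1) :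
    ∃ j, rootsL y α j = ctr l + s * dL y α l := by
  rw [rootsL_eq]
  rcases hs with rfl | rfl
  · fin_cases l
    · exact ⟨1, by simp [H828.th, ctr]⟩
    · exact ⟨3, by simp [H828.th, ctr]; ring⟩
    · exact ⟨5, by simp [H828.th, ctr]; ring⟩
  · fin_cases l
    · exact ⟨0, by simp [H828.th, ctr]; ring⟩
    · exact ⟨2, by simp [H828.th, ctr]; ring⟩
    · exact ⟨4, by simp [H828.th, ctr]; ring⟩

section Roots

variable {y α : Fin 3 → ℝ} (hd : ∀ l, ‖dL y α l‖ ≤ 1 / 128)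

theorem norm_sd {s : ℂ} (hs : s = 1 ∨ s = -1) (d : ℂ) : ‖s * d‖ = ‖d‖ := by
  rcases hs with rfl | rfl <;> simp

include hd

theorem root_trich (k : Fin 3) (j : Fin 6) : rootsL y α j = ctr k + dL y α k ∨
    rootsL y α j = ctr k - dL y α k ∨ 15 / 8 ≤ ‖rootsL y α j - ctr k‖ := by
  obtain ⟨l, s, hs, h⟩ := root_cases y α j
  by_cases hl : l = k
  · subst hl
    rcases hs with rfl | rfl
    · left
      rw [h, one_mul]
    · right; left
      rw [h]
      ring
  · right; right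
    have h1 := H975.two_le_norm_ctr (k := k) (l := l) hl
    have h2 : ctr k - ctr l = -(rootsL y α j - ctr k) + s * dL y α l := by
      rw [h]
      ring
    have h3 := norm_add_le (-(rootsL y α j - ctr k)) (s * dL y α l)
    rw [← h2, norm_neg, norm_sd hs] at h3
    have := hd l
    linarith

theorem root_norm (j : Fin 6) : ‖rootsL y α j‖ ≤ 6 := by
  obtain ⟨l, s, hs, h⟩ := root_cases y α j
  rw [h]
  have h1 := norm_add_le (ctr l) (s * dL y α l)
  rw [norm_sd hs] at h1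
  have := H975.norm_ctr_le l
  have := hd l
  linarith

theorem root_sep (hinj : Function.Injective (rootsL y α)) {k : Fin 3} {s : ℂ}
    (hs : s = 1 ∨ s = -1) {j : Fin 6} (hj : rootsL y α j = ctr k + s * dL y α k) (i : Fin 6)
    (hi : i ≠ j) : 2 * ‖dL y α k‖ ≤ ‖rootsL y α i - rootsL y α j‖ := by
  obtain ⟨l, s', hs', h⟩ := root_cases y α i
  by_cases hl : l = k
  · subst hl
    have h1 : s' ≠ s := fun h1 => hi (hinj (by rw [h, hj, h1]))
    have h2 : rootsL y α i - rootsL y α j = (s' - s) * dL y α l := by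
      rw [h, hj]
      ring
    rw [h2, norm_mul]
    refine mul_le_mul_of_nonneg_right ?_ (norm_nonneg _)
    rcases hs with rfl | rfl <;> rcases hs' with rfl | rfl
    · exact absurd rfl h1
    · norm_num
    · norm_num
    · exact absurd rfl h1
  · have h1 := H975.two_le_norm_ctr (k := k) (l := l) hl
    have h2 : ctr k - ctr l = -(rootsL y α i - rootsL y α j) + (s' * dL y α l - s * dL y α k) := by
      rw [h, hj]
      ring
    have h3 := norm_add_le (-(rootsL y α i - rootsL y α j)) (s' * dL y α l - s * dL y α k)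
    have h4 := norm_sub_le (s' * dL y α l) (s * dL y α k)
    rw [← h2, norm_neg] at h3
    rw [norm_sd hs, norm_sd hs'] at h4
    have := hd l
    have := hd k
    linarith

theorem Rr_le : H604.Rr (rootsL y α) ≤ 120 := by
  unfold H604.Rr
  have h1 : ∑ i, ‖rootsL y α i‖ ^ 2 ≤ 216 := by
    calc ∑ i, ‖rootsL y α i‖ ^ 2 ≤ ∑ _i : Fin 6, (36 : ℝ) := by
          refine Finset.sum_le_sum fun i _ => ?_
          have := root_norm hd i
          have := norm_nonneg (rootsL y α i)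
          nlinarith
      _ = 216 := by simp; norm_num
  have h2 : Real.sqrt (1 + ∑ i, ‖rootsL y α i‖ ^ 2) ≤ 15 := by
    refine Real.sqrt_le_iff.2 ⟨by norm_num, by linarith⟩
  linarith

/-- the distance of a near core mark to the roots -/
theorem core_dist {x : ℂ} (hx : ∀ l, 1 / 64 ≤ ‖x - ctr l‖) (j : Fin 6) :
    1 / 128 ≤ ‖x - rootsL y α j‖ := by
  obtain ⟨l, s, hs, h⟩ := root_cases y α j
  have h1 : x - ctr l = (x - rootsL y α j) + s * dL y α l := by
    rw [h]
    ring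
  have h2 := norm_add_le (x - rootsL y α j) (s * dL y α l)
  rw [← h1, norm_sd hs] at h2
  have := hx l
  have := hd l
  linarith

end Roots

/-! ### the square root near one -/

theorem csq_near {z : ℂ} (hz : z ≠ 0) : ‖csq z - 1‖ ≤ ‖z - 1‖ := by
  have h1 : csq z = H214.psq z := by
    unfold csq H214.psq
    rw [Complex.cpow_def_of_ne_zero hz]
    congr 1
    ring
  rw [h1]
  exact H214.norm_psq_sub_one_le hz

/-- the factor `G_k` of close points -/
theorem gk_ratio {ε : Fin 3 → ℂ} (hε : ∀ l, ‖ε l‖ ≤ 1 / 256) {k : Fin 3} {x x' : ℂ}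
    (hx : ‖x - ctr k‖ ≤ 1 / 8) (hx' : ‖x' - ctr k‖ ≤ 1 / 8) (hxx : ‖x - x'‖ ≤ 1 / 100) :
    gk ε k x ≠ 0 ∧ ‖gk ε k x' / gk ε k x - 1‖ ≤ 1 / 10 := by
  have key : ∀ (l : Fin 3), l ≠ k → ∀ z : ℂ, ‖z - ctr k‖ ≤ 1 / 8 → 1 ≤ ‖z - ctr l‖ ∧
      ‖csq (1 - ε l / (z - ctr l) ^ 2) - 1‖ ≤ 1 / 256 := by
    intro l hl z hz
    have h1 := H975.two_le_norm_ctr (k := k) (l := l) hl
    have h2 : ctr k - ctr l = -(z - ctr k) + (z - ctr l) := by ring
    have h3 := norm_add_le (-(z - ctr k)) (z - ctr l)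
    rw [← h2, norm_neg] at h3
    have h4 : 1 ≤ ‖z - ctr l‖ := by linarith
    have h5 : ‖ε l / (z - ctr l) ^ 2‖ ≤ 1 / 256 := by
      rw [norm_div, norm_pow]
      refine (div_le_self (norm_nonneg _) (one_le_pow₀ h4)).trans (hε l)
    have h6 : (1 : ℂ) - ε l / (z - ctr l) ^ 2 ≠ 0 := by
      intro h0
      have h7 : ε l / (z - ctr l) ^ 2 = 1 := by linear_combination -h0
      rw [h7, norm_one] at h5
      norm_num at h5
    refine ⟨h4, (csq_near h6).trans ?_⟩
    have h8 : (1 : ℂ) - ε l / (z - ctr l) ^ 2 - 1 = -(ε l / (z - ctr l) ^ 2) := by ring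
    rw [h8, norm_neg]
    exact h5
  have hne : ∀ (l : Fin 3) (z : ℂ), ‖z - ctr k‖ ≤ 1 / 8 →
      (if l = k then (1 : ℂ) else (z - ctr l) * csq (1 - ε l / (z - ctr l) ^ 2)) ≠ 0 := by
    intro l z hz
    split_ifs with h
    · exact one_ne_zero
    · obtain ⟨h1, h2⟩ := key l h z hz
      refine mul_ne_zero (norm_pos_iff.1 (by linarith)) fun h0 => ?_
      rw [h0, zero_sub, norm_neg, norm_one] at h2
      norm_num at h2
  refine ⟨Finset.prod_ne_zero_iff.2 fun l _ => hne l x hx, ?_⟩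
  have h1 : gk ε k x' / gk ε k x = ∏ l : Fin 3, (1 +
      ((if l = k then (1 : ℂ) else (x' - ctr l) * csq (1 - ε l / (x' - ctr l) ^ 2)) /
        (if l = k then (1 : ℂ) else (x - ctr l) * csq (1 - ε l / (x - ctr l) ^ 2)) - 1)) := by
    unfold gk
    rw [← Finset.prod_div_distrib]
    exact Finset.prod_congr rfl fun l _ => by ring
  rw [h1]
  refine (Finset.norm_prod_one_add_sub_one_le _ _).trans ?_
  have h2 : ∀ l : Fin 3, ‖(if l = k then (1 : ℂ) else (x' - ctr l) *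
      csq (1 - ε l / (x' - ctr l) ^ 2)) / (if l = k then (1 : ℂ) else (x - ctr l) *
      csq (1 - ε l / (x - ctr l) ^ 2)) - 1‖ ≤ 1 / 38 := by
    intro l
    split_ifs with h
    · norm_num
    · obtain ⟨a1, a2⟩ := key l h x hx
      obtain ⟨a3, a4⟩ := key l h x' hx'
      rw [mul_div_mul_comm]
      have b1 : ‖(x' - ctr l) / (x - ctr l) - 1‖ ≤ 1 / 100 := by
        have hn : x - ctr l ≠ 0 := norm_pos_iff.1 (by linarith)
        have e1 : (x' - ctr l) / (x - ctr l) - 1 = (x' - x) / (x - ctr l) := by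
          field_simp
          ring
        rw [e1, norm_div]
        refine (div_le_self (norm_nonneg _) a1).trans ?_
        rw [norm_sub_rev]
        exact hxx
      have b2 := near_div a4 a2 (by norm_num)
      have b3 := near_mul b1 b2
      refine b3.trans ?_
      norm_num
  have h3 : ∑ l : Fin 3, ‖(if l = k then (1 : ℂ) else (x' - ctr l) *
      csq (1 - ε l / (x' - ctr l) ^ 2)) / (if l = k then (1 : ℂ) else (x - ctr l) *
      csq (1 - ε l / (x - ctr l) ^ 2)) - 1‖ ≤ 3 / 38 := by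
    refine (Finset.sum_le_sum fun l _ => h2 l).trans ?_
    simp
    norm_num
  have h4 := Real.exp_le_exp.2 h3
  have h5 := Real.add_one_le_exp (-(3 / 38 : ℝ))
  have h6 : Real.exp (3 / 38 : ℝ) * Real.exp (-(3 / 38)) = 1 := by
    rw [← Real.exp_add]
    norm_num
  have h7 := Real.exp_pos (3 / 38 : ℝ)
  have h8 : Real.exp (3 / 38 : ℝ) ≤ 11 / 10 := by nlinarith
  linarith

/-! ### the marks -/

section Marks

variable {R : H95.Region} {m : ∀ k, Fin (R.n k + 1)} {S : L → Bool} {p : Co R m}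

theorem XX_mul_YY (q : R.Sp) (k : Fin 3) (i : ℕ) : R.XX q k i * R.YY q k i = R.eps q k := by
  simp only [Region.XX, Region.YY, Region.eps, ← Finset.prod_mul_distrib]
  refine Finset.prod_congr rfl fun g _ => ?_
  by_cases h : (g : ℕ) ≤ i
  · rw [if_pos h, if_neg (by omega), mul_one]
  · rw [if_neg h, if_pos (by omega), one_mul]

/-- the product of the gaps between two marks -/
def PPr (q : R.Sp) (k : Fin 3) (i j : ℕ) : ℂ :=
  ∏ g : Fin (R.n k + 1), (if i < (g : ℕ) ∧ (g : ℕ) ≤ j then q.1 ⟨k, g⟩ else 1)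

theorem XX_mul (q : R.Sp) (k : Fin 3) {i j : ℕ} (hij : i ≤ j) :
    R.XX q k j = PPr q k i j * R.XX q k i := by
  simp only [Region.XX, PPr, ← Finset.prod_mul_distrib]
  refine Finset.prod_congr rfl fun g _ => ?_
  by_cases h : (g : ℕ) ≤ i
  · rw [if_pos (h.trans hij), if_pos h, if_neg (by omega), one_mul]
  · by_cases h' : (g : ℕ) ≤ j
    · rw [if_pos h', if_neg h, if_pos ⟨by omega, h'⟩, mul_one]
    · rw [if_neg h', if_neg h, if_neg (by omega), mul_one]

theorem YY_mul (q : R.Sp) (k : Fin 3) {i j : ℕ} (hij : i ≤ j) :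
    R.YY q k i = PPr q k i j * R.YY q k j := by
  simp only [Region.YY, PPr, ← Finset.prod_mul_distrib]
  refine Finset.prod_congr rfl fun g _ => ?_
  by_cases h : j < (g : ℕ)
  · rw [if_pos (lt_of_le_of_lt hij h), if_neg (by omega), if_pos h, one_mul]
  · by_cases h' : i < (g : ℕ)
    · rw [if_pos h', if_pos ⟨h', by omega⟩, if_neg h, mul_one]
    · rw [if_neg h', if_neg (by omega), if_neg h, mul_one]

theorem eps_emb (p : Co R m) (k : Fin 3) :
    R.eps (emb R m p) k = dL p.2.2.1 p.2.2.2.1 k ^ 2 := by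
  rw [emb, eps_scl_psi, dL_sq]

theorem ug_nonneg (hp : (W R m).Inr p) (hy : ∀ k, 0 ≤ p.2.2.1 k) (g : Σ k, Fin (R.n k + 1)) :
    0 ≤ (W R m).ug p g := by
  by_cases h : g ≠ (W R m).last ((W R m).nk g)
  · have := hp.1 ⟨g, h⟩
    rwa [← (W R m).ug_free] at this
  · rw [not_not.1 h, (W R m).ug_last]
    exact (W R m).ul_nonneg hp _ (hy _)

theorem norm_psi_le (hp : (W R m).Inr p) (hy : ∀ k, 0 ≤ p.2.2.1 k) (g : R.Gap) :
    ‖((W R m).psi p).1 g‖ ≤ 1 := by
  show ‖(W R m).tau p g‖ ≤ 1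
  rw [(W R m).norm_tau]
  have := ug_nonneg hp hy g
  rw [Real.exp_le_one_iff]
  linarith

theorem norm_XX_le (hp : (W R m).Inr p) (hy : ∀ k, 0 ≤ p.2.2.1 k) {j : L} {k : Fin 3}
    (h : R.pl j = Sum.inl k) : ‖R.XX (emb R m p) k (R.rk j)‖ ≤ 1 / 16 ∧
      ‖R.YY (emb R m p) k (R.rk j)‖ ≤ 1 / 16 := by
  have hr : R.rk j < R.n k := R.rk_lt j k h
  have h6 : ‖(1 / 16 : ℂ)‖ = 1 / 16 := by norm_num
  have h1 := norm_psi_le hp hy
  constructor
  · rw [emb, XX_scl R _ k hr, norm_mul, h6]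
    have := H975.norm_prod_if_le (q := (W R m).psi p) h1 k (fun g => (g : ℕ) ≤ R.rk j)
    linarith
  · rw [emb, YY_scl R _ k hr, norm_mul, h6]
    have := H975.norm_prod_if_le (q := (W R m).psi p) h1 k (fun g => R.rk j < (g : ℕ))
    linarith

end Marks

end Vale.Agent.P273.H965
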