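import Vale.Agent.P273.H803.AsyL
import Vale.Agent.P273.H965.ColA
import Vale.Agent.P273.H965.ColC

/-!
# P273, row ASY0 (helper965): the field `col` of `Asy` for the gauge of a flat family

`col_of (Φ : FlatFam) (hΘ : Θ.θ = th (oneOf Φ)) : H803.Col Θ`.
-/

open Set Filter Topology Metric
open scoped ContDiff

noncomputable section

namespace Vale.Agent.P273.H965

open H681 H95 H732 H562
open H973 (fin PP Xp Yp th One th_bad pt_PP)
open H578 (Pt Close rad rad_pos rad_le Hs fb Same Off)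
open H214 (FlatFam oneOf hh)

/-- the constant of `Col` -/
def dlt : ℝ := rad 6 / 2 ^ 40

theorem dlt_pos : 0 < dlt := by
  have := rad_pos 6
  unfold dlt
  positivity

theorem dlt_le : dlt ≤ 1 / 2 ^ 40 := by
  have := rad_le 6
  unfold dlt
  have h : rad 6 / 2 ^ 40 ≤ 1 / 2 ^ 40 := by
    refine div_le_div_of_nonneg_right (by linarith) (by positivity)
  exact h

theorem rad_eq : rad 6 = 2 ^ 40 * dlt := by
  unfold dlt
  field_simp

section Pair

variable {R : H95.Region} {m : ∀ k, Fin (R.n k + 1)} {S : L → Bool} {p : Co R m}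
  {t : Bool} {k₁ k₂ : Fin 7}

theorem PP_false {k : Fin 7} (h : S (k, t) = false) :
    PP S t (posE R m p) (shE R m S p) k =
      (R.pos (emb R m p) (k, t), R.sht S (emb R m p) (k, t)) := by
  unfold PP Xp Yp
  simp only [h, Bool.false_eq_true, if_false]
  rfl

theorem PP_true {k : Fin 7} (h : S (k, t) = true) :
    PP S t (posE R m p) (shE R m S p) k = ((R.pos (emb R m p) (k, t))⁻¹,
      R.sht S (emb R m p) (k, t) * ((R.pos (emb R m p) (k, t))⁻¹) ^ 3) := by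
  unfold PP Xp Yp
  simp only [h, if_true]
  rfl

theorem fin_false {e : E} {k : Fin 7} (h : S (k, t) = false) : fin S t e k := by
  unfold fin
  simp [h]

/-- two marks at positions with a lower bound of the distances to the roots -/
theorem th_pair (O : One) (hX : (posE R m p).1 ∈ XX)
    (hv : OnC S (rts (posE R m p).1) (posE R m p).2 (shE R m S p)) (hkl : k₁ ≠ k₂) {r : ℝ}
    (hr : 0 < r) {P Q : ℂ × ℂ} (hP : PP S t (posE R m p) (shE R m S p) k₁ = P)
    (hQ : PP S t (posE R m p) (shE R m S p) k₂ = Q)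
    (h1 : fin S t (posE R m p) k₁) (h2 : fin S t (posE R m p) k₂)
    (hd : ∀ j, r ≤ ‖P.1 - (posE R m p).1 j‖) (hx : ‖P.1 - Q.1‖ ≤ rad 6 / 20 * r)
    (hs : Same P.2 Q.2) {ξ : Fin 6 → ℝ} (hξ : IsCl ξ) :
    th O (k₁, t) ξ S (posE R m p) (shE R m S p) = th O (k₂, t) ξ S (posE R m p) (shE R m S p) := by
  refine th_close O hX hv hkl h1 h2 (fun n hn => ?_) hξ
  rw [hP, hQ]
  exact close_both hr hd hx hs hn

/-! ### marks of one neck -/

theorem neck_case (Φ : FlatFam) (hFar : FarOk R S) (hp : (W R m).Inr p)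
    (hy : ∀ k, 14 ≤ p.2.2.1 k) (hX : (posE R m p).1 ∈ XX)
    (hv : OnC S (rts (posE R m p).1) (posE R m p).2 (shE R m S p)) (hkl : k₁ ≠ k₂) {k : Fin 3}
    (hi : R.pl (k₁, t) = Sum.inl k) (hj : R.pl (k₂, t) = Sum.inl k)
    (hr : R.rk (k₁, t) < R.rk (k₂, t)) (hc : H975.Cln R (emb R m p) (k₁, t) (k₂, t) k < dlt)
    {ξ : Fin 6 → ℝ} (hξ : IsCl ξ) :
    th (oneOf Φ) (k₁, t) ξ S (posE R m p) (shE R m S p) =
      th (oneOf Φ) (k₂, t) ξ S (posE R m p) (shE R m S p) := by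
  have hS : ∀ {j : L} {k : Fin 3}, R.pl j = Sum.inl k → S j = false := by
    intro j k h
    by_contra h1
    have h2 := hFar j (by simpa using h1)
    rw [h] at h2
    simp at h2
  have hd : ∀ l, ‖dL p.2.2.1 p.2.2.2.1 l‖ ≤ 1 / 128 := fun l => dL_small _ (hy l)
  have hy0 : ∀ k, 0 ≤ p.2.2.1 k := fun k => by linarith [hy k]
  obtain ⟨hXi, hYi⟩ := norm_XX_le hp hy0 hi
  obtain ⟨hXj, hYj⟩ := norm_XX_le hp hy0 hj
  have hPi := PP_false (m := m) (p := p) (hS hi)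
  have hPj := PP_false (m := m) (p := p) (hS hj)
  have hposi : R.pos (emb R m p) (k₁, t) = ctr k + (R.XX (emb R m p) k (R.rk (k₁, t)) +
    R.YY (emb R m p) k (R.rk (k₁, t))) / 2 := pos_neck R _ hi
  have hposj : R.pos (emb R m p) (k₂, t) = ctr k + (R.XX (emb R m p) k (R.rk (k₂, t)) +
    R.YY (emb R m p) k (R.rk (k₂, t))) / 2 := pos_neck R _ hj
  have hshi := sht_neck R S (emb R m p) hi
  have hshj := sht_neck R S (emb R m p) hj
  have hXX := XX_mul (R := R) (emb R m p) k hr.le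
  have hYY := YY_mul (R := R) (emb R m p) k hr.le
  have hprod := XX_mul_YY (R := R) (emb R m p) k (R.rk (k₁, t))
  rw [eps_emb] at hprod
  have hc' : ‖PPr (emb R m p) k (R.rk (k₁, t)) (R.rk (k₂, t)) - 1‖ ≤ dlt := hc.le
  have hxi : ‖R.pos (emb R m p) (k₁, t) - ctr k‖ ≤ 1 / 8 := by
    rw [hposi, add_sub_cancel_left, norm_div]
    have := norm_add_le (R.XX (emb R m p) k (R.rk (k₁, t))) (R.YY (emb R m p) k (R.rk (k₁, t)))
    simp only [Complex.norm_ofNat]
    linarith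
  have hxj : ‖R.pos (emb R m p) (k₂, t) - ctr k‖ ≤ 1 / 8 := by
    rw [hposj, add_sub_cancel_left, norm_div]
    have := norm_add_le (R.XX (emb R m p) k (R.rk (k₂, t))) (R.YY (emb R m p) k (R.rk (k₂, t)))
    simp only [Complex.norm_ofNat]
    linarith
  set X := R.XX (emb R m p) k (R.rk (k₁, t)) with hXdef
  set Y := R.YY (emb R m p) k (R.rk (k₁, t)) with hYdef
  set X' := R.XX (emb R m p) k (R.rk (k₂, t)) with hX'def
  set Y' := R.YY (emb R m p) k (R.rk (k₂, t)) with hY'def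
  set P := PPr (emb R m p) k (R.rk (k₁, t)) (R.rk (k₂, t)) with hPdef
  set d := dL p.2.2.1 p.2.2.2.1 k with hddef
  have hd0 : d ≠ 0 := dL_ne _ _ _
  have hd0' : 0 < ‖d‖ := norm_pos_iff.2 hd0
  have hδ0 := dlt_pos
  have hδ1 := dlt_le
  have hδ2 : dlt ≤ 1 / 2 := hδ1.trans (by norm_num)
  obtain ⟨-, hdist⟩ := pos_close (a := ctr k) (X := X) (Y := Y) (Y' := Y') hδ2 hc' hYY
  rw [← hXX, ← hposi, ← hposj] at hdist
  have hn : ‖X‖ * ‖Y‖ = ‖d‖ ^ 2 := by rw [← norm_mul, hprod, norm_pow]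
  have hM0 : 0 < max ‖X‖ ‖Y‖ := by
    by_contra h0
    push Not at h0
    have h1 : ‖X‖ ≤ 0 := (le_max_left _ _).trans h0
    have h2 : ‖X‖ = 0 := le_antisymm h1 (norm_nonneg _)
    rw [h2, zero_mul] at hn
    have : 0 < ‖d‖ ^ 2 := by positivity
    linarith
  have hM1 : max ‖X‖ ‖Y‖ ≤ 1 / 16 := max_le hXi hYi
  have hb : (posE R m p).1 = rootsL p.2.2.1 p.2.2.2.1 := rfl
  have hinj : Function.Injective (rootsL p.2.2.1 p.2.2.2.1) := H214.sub_XX hX
  by_cases hnear : ∃ s : ℂ, (s = 1 ∨ s = -1) ∧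
      ‖R.pos (emb R m p) (k₁, t) - (ctr k + s * d)‖ < 1 / 2048 * ‖d‖
  · -- in the disc of a root
    obtain ⟨s, hs, hlt⟩ := hnear
    obtain ⟨j₀, hj₀⟩ := root_ex p.2.2.1 p.2.2.2.1 k hs
    have hsqrt := le_sqrt_hh (b := rootsL p.2.2.1 p.2.2.2.1) (j := j₀) (ρ := 2 * ‖d‖)
      (by positivity) (root_sep hd hinj hs hj₀)
    have hM : max ‖X‖ ‖Y‖ < 8 * ‖d‖ := by
      have h1 : ‖(X + Y) / 2 - s * d‖ < 2 * ‖s * d‖ := by
        rw [norm_sd hs]
        have h2 : (X + Y) / 2 - s * d = R.pos (emb R m p) (k₁, t) - (ctr k + s * d) := by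
          rw [hposi]
          ring
        rw [h2]
        linarith
      have h3 : s * d ≠ 0 := by
        rcases hs with rfl | rfl
        · simpa using hd0
        · simpa using hd0
      have h4 := max_lt_of_near h3 (by rw [norm_sd hs]; exact hn) h1
      rwa [norm_sd hs] at h4
    have hlt2 : ‖R.pos (emb R m p) (k₂, t) - (ctr k + s * d)‖ < 1 / 1024 * ‖d‖ := by
      have h1 : ‖R.pos (emb R m p) (k₂, t) - (ctr k + s * d)‖ ≤
          ‖R.pos (emb R m p) (k₂, t) - R.pos (emb R m p) (k₁, t)‖ +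
          ‖R.pos (emb R m p) (k₁, t) - (ctr k + s * d)‖ := norm_sub_le_norm_sub_add_norm_sub _ _ _
      rw [norm_sub_rev (R.pos (emb R m p) (k₂, t)) (R.pos (emb R m p) (k₁, t))] at h1
      have h2 : 3 / 2 * dlt * max ‖X‖ ‖Y‖ ≤ 1 / 4096 * ‖d‖ := by
        have h3 : dlt * max ‖X‖ ‖Y‖ ≤ 1 / 2 ^ 40 * (8 * ‖d‖) :=
          mul_le_mul hδ1 hM.le hM0.le (by positivity)
        have h4 : (1 : ℝ) / 2 ^ 40 * (8 * ‖d‖) ≤ 1 / 2 ^ 20 * ‖d‖ := by
          have : (0 : ℝ) ≤ ‖d‖ := norm_nonneg _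
          norm_num
          linarith
        have h5 : (1 : ℝ) / 2 ^ 20 * ‖d‖ ≤ 1 / 8192 * ‖d‖ :=
          mul_le_mul_of_nonneg_right (by norm_num) (norm_nonneg _)
        linarith
      linarith
    have hthr : ∀ n : Fin 7, 1 / 1024 * ‖d‖ <
        Real.sqrt (hh (posE R m p).1 j₀) / 8 / 2 ^ (n : ℕ) := by
      intro n
      rw [hb]
      have h1 : (2 : ℝ) ^ (n : ℕ) ≤ 64 := by
        have : (2 : ℝ) ^ (n : ℕ) ≤ 2 ^ 6 :=
          pow_le_pow_right₀ (by norm_num) (Nat.lt_succ_iff.1 n.2)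
        linarith
      rw [lt_div_iff₀ (by positivity)]
      calc 1 / 1024 * ‖d‖ * 2 ^ (n : ℕ) ≤ 1 / 1024 * ‖d‖ * 64 :=
            mul_le_mul_of_nonneg_left h1 (by positivity)
        _ < 2 * ‖d‖ / 3 / 8 := by linarith
        _ ≤ _ := by linarith
    have e1 : (posE R m p).2 (k₁, t) = R.pos (emb R m p) (k₁, t) := rfl
    have e2 : (posE R m p).2 (k₂, t) = R.pos (emb R m p) (k₂, t) := rfl
    rw [th_root Φ hX hv (hS hi) j₀ ?_ hξ, th_root Φ hX hv (hS hj) j₀ ?_ hξ]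
    · rw [e2, hb, hj₀]
      exact hlt2.trans (hthr k₂)
    · rw [e1, hb, hj₀]
      exact (hlt.trans (by linarith)).trans (hthr k₁)
  · -- away from the roots
    push Not at hnear
    have h1 : 1 / 2048 * ‖d‖ ≤ ‖ctr k + (X + Y) / 2 - (ctr k + d)‖ := by
      have := hnear 1 (Or.inl rfl)
      rwa [one_mul, hposi] at this
    have h2 : 1 / 2048 * ‖d‖ ≤ ‖ctr k + (X + Y) / 2 - (ctr k - d)‖ := by
      have := hnear (-1) (Or.inr rfl)
      rwa [neg_one_mul, ← sub_eq_add_neg, hposi] at this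
    have hlow := low_all (b := rootsL p.2.2.1 p.2.2.2.1) (c := 1 / 2048) (by norm_num)
      (by norm_num) hd0 (root_trich hd k) hprod (by linarith) (by linarith) h1 h2
    obtain ⟨ja, hja⟩ := root_ex p.2.2.1 p.2.2.2.1 k (Or.inl rfl : (1 : ℂ) = 1 ∨ (1 : ℂ) = -1)
    obtain ⟨jb, hjb⟩ := root_ex p.2.2.1 p.2.2.2.1 k (Or.inr rfl : (-1 : ℂ) = 1 ∨ (-1 : ℂ) = -1)
    have hla := hlow ja
    have hlb := hlow jb
    rw [hja, one_mul] at hla
    rw [hjb, neg_one_mul, ← sub_eq_add_neg] at hlb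
    have hsmall : dlt * max ‖X‖ ‖Y‖ ≤ 1 / 2 ^ 40 * max ‖X‖ ‖Y‖ :=
      mul_le_mul_of_nonneg_right hδ1 hM0.le
    obtain ⟨hXY0, hratio⟩ := sheet_close (a := ctr k) (m := 1 / 2048 / 8 * max ‖X‖ ‖Y‖)
      (by positivity) hδ2 hc' hYY hprod hla hlb (by
        norm_num at hsmall
        linarith)
    obtain ⟨hg0, hg⟩ := gk_ratio (ε := R.eps (emb R m p)) (k := k) (fun l => by
        rw [eps_emb, norm_pow]
        have := hd l
        have := norm_nonneg (dL p.2.2.1 p.2.2.2.1 l)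
        nlinarith) hxi hxj (by
        refine hdist.trans ?_
        norm_num at hsmall
        linarith)
    refine th_pair (oneOf Φ) hX hv hkl (r := 1 / 2048 / 8 * max ‖X‖ ‖Y‖) (by positivity) hPi hPj
      (fin_false (hS hi)) (fin_false (hS hj)) (fun j => ?_) ?_ ?_ hξ
    · show _ ≤ ‖R.pos (emb R m p) (k₁, t) - rootsL p.2.2.1 p.2.2.2.1 j‖
      rw [hposi]
      exact hlow j
    · show ‖R.pos (emb R m p) (k₁, t) - R.pos (emb R m p) (k₂, t)‖ ≤ _
      refine hdist.trans ?_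
      rw [rad_eq]
      have h3 : 0 < dlt * max ‖X‖ ‖Y‖ := by positivity
      norm_num
      nlinarith
    · show Same (R.sht S (emb R m p) (k₁, t)) (R.sht S (emb R m p) (k₂, t))
      rw [hshi, hshj]
      refine same_of_ratio (div_ne_zero (mul_ne_zero hg0 hXY0) two_ne_zero) ?_
      have h3 : gk (R.eps (emb R m p)) k (R.pos (emb R m p) (k₂, t)) * (X' - Y') / 2 /
          (gk (R.eps (emb R m p)) k (R.pos (emb R m p) (k₁, t)) * (X - Y) / 2) =
          gk (R.eps (emb R m p)) k (R.pos (emb R m p) (k₂, t)) /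
          gk (R.eps (emb R m p)) k (R.pos (emb R m p) (k₁, t)) * ((P * X - Y') / (X - Y)) := by
        rw [hXX]
        field_simp
      rw [h3]
      exact (near_mul hg hratio).trans_lt (by norm_num)

/-! ### marks which are not in one neck -/

theorem zone_near {R : H95.Region} {S : L → Bool} {z : R.Cm → ℂ}
    (hz : z ∈ H975.zone R S (1 / 64) 11) (c : R.Cm) (h : S c.1 = false) :
    ‖z c‖ ≤ 11 ∧ ∀ l, 1 / 64 ≤ ‖z c - ctr l‖ := by
  have h1 := hz c (Set.mem_univ _)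
  simp only [h, Bool.false_eq_true, if_false] at h1
  exact ⟨mem_closedBall_zero_iff.1 h1.1, h1.2⟩

theorem zone_far {R : H95.Region} {S : L → Bool} {z : R.Cm → ℂ}
    (hz : z ∈ H975.zone R S (1 / 64) 11) (c : R.Cm) (h : S c.1 = true) : ‖z c‖ ≤ 11⁻¹ := by
  have h1 := hz c (Set.mem_univ _)
  simp only [h, if_true] at h1
  exact mem_closedBall_zero_iff.1 h1

/-- values of the sheet at a far mark -/
theorem far_low {b : Fin 6 → ℂ} (hb : ∀ j, ‖b j‖ ≤ 6) {w v : ℂ} (hw : ‖w‖ ≤ 11⁻¹)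
    (hv : v ^ 2 = pol true (rts b) w) : 1 / 16 ≤ ‖v‖ := by
  have h1 : ((5 / 11 : ℝ) ^ 3) ^ 2 ≤ ‖v‖ ^ 2 := by
    rw [← norm_pow, hv, H973.pol_true, norm_prod]
    calc ((5 / 11 : ℝ) ^ 3) ^ 2 = ∏ _j : Fin 6, (5 / 11 : ℝ) := by
          rw [Finset.prod_const, Finset.card_univ, Fintype.card_fin, ← pow_mul]
      _ ≤ ∏ j, ‖1 - b j * w‖ := by
        refine Finset.prod_le_prod (fun _ _ => by norm_num) fun j _ => ?_
        have h2 := norm_sub_norm_le (1 : ℂ) (b j * w)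
        have h3 : ‖b j * w‖ ≤ 6 * 11⁻¹ := by
          rw [norm_mul]
          exact mul_le_mul (hb j) hw (norm_nonneg _) (by norm_num)
        rw [norm_one] at h2
        linarith
  have h2 : (5 / 11 : ℝ) ^ 3 ≤ ‖v‖ := le_of_sq_le_sq h1 (norm_nonneg _)
  refine le_trans (by norm_num) h2

/-- deep in the far zone the sheet is close to `1` or to `-1` -/
theorem far_sign {b : Fin 6 → ℂ} (hb : ∀ j, ‖b j‖ ≤ 6) {w v : ℂ} (hw : ‖w‖ ≤ 1 / 1024)
    (hv : v ^ 2 = pol true (rts b) w) :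
    (0 < v.re ∧ ‖v - 1‖ ≤ 1 / 4) ∨ (v.re < 0 ∧ ‖v + 1‖ ≤ 1 / 4) := by
  refine H578.sq_close ?_
  rw [hv, H973.pol_true]
  have h1 : ∏ i, (1 - b i * w) = ∏ i, (1 + -(b i * w)) :=
    Finset.prod_congr rfl fun i _ => by ring
  rw [h1]
  refine (Finset.norm_prod_one_add_sub_one_le _ _).trans ?_
  have h3 : ∑ i : Fin 6, ‖-(b i * w)‖ ≤ 1 / 10 := by
    calc ∑ i : Fin 6, ‖-(b i * w)‖ ≤ ∑ _i : Fin 6, (6 * (1 / 1024) : ℝ) := by
          refine Finset.sum_le_sum fun i _ => ?_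
          rw [norm_neg, norm_mul]
          exact mul_le_mul (hb i) hw (norm_nonneg _) (by norm_num)
      _ ≤ 1 / 10 := by simp; norm_num
  have h4 := Real.exp_le_exp.2 h3
  have h5 := Real.add_one_le_exp (-(1 / 10 : ℝ))
  have h6 : Real.exp (1 / 10 : ℝ) * Real.exp (-(1 / 10)) = 1 := by
    rw [← Real.exp_add]
    norm_num
  have h7 := Real.exp_pos (1 / 10 : ℝ)
  have h8 : Real.exp (1 / 10 : ℝ) ≤ 5 / 4 := by nlinarith
  linarith

/-- a far mark and a near mark -/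
theorem mixed {b : Fin 6 → ℂ} (hb : ∀ j, ‖b j‖ ≤ 6) {w v x y : ℂ} (hw : ‖w‖ ≤ 11⁻¹)
    (hv : v ^ 2 = pol true (rts b) w) (hv0 : v ≠ 0) (hx : ‖x‖ ≤ 11)
    (h1 : ‖w * x - 1‖ < dlt) (h2 : ‖y - v * x ^ 3‖ ≤ 1 / 100) :
    (∀ j, 1 ≤ ‖w⁻¹ - b j‖) ∧ ‖w⁻¹ - x‖ ≤ rad 6 / 20 * 1 ∧ Same (v * w⁻¹ ^ 3) y ∧ w ≠ 0 := by
  have hδ := dlt_le
  have hw0 : w ≠ 0 := by
    rintro rfl
    rw [zero_mul, zero_sub, norm_neg, norm_one] at h1
    have : (1 : ℝ) / 2 ^ 40 < 1 := by norm_num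
    linarith
  have hwp : 0 < ‖w‖ := norm_pos_iff.2 hw0
  have hwi : 11 ≤ ‖w⁻¹‖ := by
    rw [norm_inv, le_inv_comm₀ (by norm_num) hwp]
    exact hw
  have hwx : 1 / 2 ≤ ‖w * x‖ := by
    have := norm_sub_norm_le (1 : ℂ) (1 - w * x)
    rw [norm_one, sub_sub_cancel, norm_sub_rev] at this
    have : (1 : ℝ) / 2 ^ 40 < 1 / 4 := by norm_num
    linarith
  have hwi2 : ‖w⁻¹‖ ≤ 22 := by
    rw [norm_mul] at hwx
    rw [norm_inv, inv_le_comm₀ hwp (by norm_num)]
    nlinarith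
  refine ⟨fun j => ?_, ?_, ?_, hw0⟩
  · have := norm_sub_norm_le w⁻¹ (b j)
    have := hb j
    linarith
  · have h3 : w⁻¹ - x = -(w⁻¹ * (w * x - 1)) := by
      field_simp
      ring
    rw [h3, norm_neg, norm_mul, rad_eq]
    have h4 : ‖w⁻¹‖ * ‖w * x - 1‖ ≤ 22 * dlt :=
      mul_le_mul hwi2 h1.le (norm_nonneg _) (by norm_num)
    have := dlt_pos
    linarith
  · refine same_of_ratio (mul_ne_zero hv0 (pow_ne_zero 3 (inv_ne_zero hw0))) ?_
    have hlow := far_low hb hw hv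
    have h3 : y / (v * w⁻¹ ^ 3) - 1 = ((w * x) * ((w * x) * (w * x)) - 1) +
        (y - v * x ^ 3) / (v * w⁻¹ ^ 3) := by
      field_simp
      ring
    rw [h3]
    have h4 : ‖w * x - 1‖ ≤ 1 / 100 := h1.le.trans (hδ.trans (by norm_num))
    have h5 := near_mul h4 (near_mul h4 h4)
    have h6 : ‖(y - v * x ^ 3) / (v * w⁻¹ ^ 3)‖ ≤ 1 / 100 := by
      rw [norm_div, norm_mul, norm_pow]
      have h7 : 1 ≤ ‖v‖ * ‖w⁻¹‖ ^ 3 := by
        have h8 : (11 : ℝ) ^ 3 ≤ ‖w⁻¹‖ ^ 3 := pow_le_pow_left₀ (by norm_num) hwi 3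
        nlinarith [norm_nonneg v]
      exact (div_le_self (norm_nonneg _) h7).trans h2
    refine (norm_add_le _ _).trans_lt ?_
    refine (add_le_add h5 h6).trans_lt ?_
    norm_num

/-- two far marks, not deep -/
theorem farfar {b : Fin 6 → ℂ} (hb : ∀ j, ‖b j‖ ≤ 6) {w v w' v' : ℂ} (hw : ‖w‖ ≤ 11⁻¹)
    (hv : v ^ 2 = pol true (rts b) w) (hv0 : v ≠ 0) (hw1 : 1 / 2 ^ 15 ≤ ‖w‖)
    (h1 : ‖w - w'‖ < dlt) (h2 : ‖v - v'‖ < dlt) :
    (∀ j, 1 ≤ ‖w⁻¹ - b j‖) ∧ ‖w⁻¹ - w'⁻¹‖ ≤ rad 6 / 20 * 1 ∧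
      Same (v * w⁻¹ ^ 3) (v' * w'⁻¹ ^ 3) ∧ w ≠ 0 ∧ w' ≠ 0 := by
  have hδ := dlt_le
  have hwp : 0 < ‖w‖ := lt_of_lt_of_le (by norm_num) hw1
  have hw0 : w ≠ 0 := norm_pos_iff.1 hwp
  have hw1' : 1 / 2 ^ 16 ≤ ‖w'‖ := by
    have := norm_sub_norm_le w w'
    have h3 : (1 : ℝ) / 2 ^ 15 - 1 / 2 ^ 40 ≥ 1 / 2 ^ 16 := by norm_num
    linarith
  have hwp' : 0 < ‖w'‖ := lt_of_lt_of_le (by norm_num) hw1'
  have hw0' : w' ≠ 0 := norm_pos_iff.1 hwp'
  have hwi : 11 ≤ ‖w⁻¹‖ := by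
    rw [norm_inv, le_inv_comm₀ (by norm_num) hwp]
    exact hw
  refine ⟨fun j => ?_, ?_, ?_, hw0, hw0'⟩
  · have := norm_sub_norm_le w⁻¹ (b j)
    have := hb j
    linarith
  · have h3 : w⁻¹ - w'⁻¹ = -((w - w') / (w * w')) := by
      field_simp
      ring
    rw [h3, norm_neg, norm_div, norm_mul, rad_eq]
    rw [div_le_iff₀ (by positivity)]
    have h4 : 1 / 2 ^ 15 * (1 / 2 ^ 16) ≤ ‖w‖ * ‖w'‖ :=
      mul_le_mul hw1 hw1' (by norm_num) (norm_nonneg _)
    have h5 := dlt_pos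
    have h6 : dlt * (1 / 2 ^ 15 * (1 / 2 ^ 16)) ≤ dlt * (‖w‖ * ‖w'‖) :=
      mul_le_mul_of_nonneg_left h4 h5.le
    norm_num at h6 ⊢
    nlinarith
  · refine same_of_ratio (mul_ne_zero hv0 (pow_ne_zero 3 (inv_ne_zero hw0))) ?_
    have hlow := far_low hb hw hv
    have h3 : v' * w'⁻¹ ^ 3 / (v * w⁻¹ ^ 3) = (v' / v) * ((w / w') * ((w / w') * (w / w'))) := by
      field_simp
    rw [h3]
    have h4 : ‖v' / v - 1‖ ≤ 1 / 100 := by
      have h5 : v' / v - 1 = (v' - v) / v := by field_simp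
      rw [h5, norm_div, div_le_iff₀ (norm_pos_iff.2 hv0), norm_sub_rev]
      have h6 : (1 : ℝ) / 2 ^ 40 ≤ 1 / 100 * (1 / 16) := by norm_num
      nlinarith
    have h5 : ‖w / w' - 1‖ ≤ 1 / 100 := by
      have h5 : w / w' - 1 = (w - w') / w' := by field_simp
      rw [h5, norm_div, div_le_iff₀ hwp']
      have h6 : (1 : ℝ) / 2 ^ 40 ≤ 1 / 100 * (1 / 2 ^ 16) := by norm_num
      nlinarith
    exact (near_mul h4 (near_mul h5 (near_mul h5 h5))).trans_lt (by norm_num)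

theorem core_pos {j : L} {s : Bool} (h : R.pl j = Sum.inr s) :
    R.pos (emb R m p) j = p.2.2.2.2 ⟨j, by simp [h]⟩ := by
  rw [pos_core R _ h, emb, scl_apply]
  rfl

theorem neck_pos (hp : (W R m).Inr p) (hy : ∀ k, 0 ≤ p.2.2.1 k) {j : L} {k : Fin 3}
    (h : R.pl j = Sum.inl k) : ‖R.pos (emb R m p) j - ctr k‖ ≤ 1 / 16 := by
  obtain ⟨h1, h2⟩ := norm_XX_le hp hy h
  rw [pos_neck R _ h, add_sub_cancel_left, norm_div]
  have := norm_add_le (R.XX (emb R m p) k (R.rk j)) (R.YY (emb R m p) k (R.rk j))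
  simp only [Complex.norm_ofNat]
  linarith

theorem near_pos (hp : (W R m).Inr p) (hy : ∀ k, 0 ≤ p.2.2.1 k)
    (hz : p.2.2.2.2 ∈ H975.zone R S (1 / 64) 11) {j : L} (h : S j = false) :
    ‖R.pos (emb R m p) j‖ ≤ 11 := by
  rcases hj : R.pl j with k | s
  · have h1 := neck_pos hp hy hj
    have h2 := H975.norm_ctr_le k
    have h3 := norm_add_le (R.pos (emb R m p) j - ctr k) (ctr k)
    rw [sub_add_cancel] at h3
    linarith
  · rw [core_pos hj]
    exact (zone_near hz ⟨j, by simp [hj]⟩ h).1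

theorem far_pos (hFar : FarOk R S) (hz : p.2.2.2.2 ∈ H975.zone R S (1 / 64) 11) {j : L}
    (h : S j = true) : ‖R.pos (emb R m p) j‖ ≤ 11⁻¹ := by
  rcases hj : R.pl j with k | s
  · have := hFar j h
    rw [hj] at this
    simp at this
  · rw [core_pos hj]
    exact zone_far hz ⟨j, by simp [hj]⟩ h

theorem core_case (Φ : FlatFam) (hFar : FarOk R S) (hp : (W R m).Inr p)
    (hy : ∀ k, 14 ≤ p.2.2.1 k) (hz : p.2.2.2.2 ∈ H975.zone R S (1 / 64) 11)
    (hX : (posE R m p).1 ∈ XX)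
    (hv : OnC S (rts (posE R m p).1) (posE R m p).2 (shE R m S p)) (hkl : k₁ ≠ k₂)
    (hn : ∀ k, ¬ (R.pl (k₁, t) = Sum.inl k ∧ R.pl (k₂, t) = Sum.inl k))
    (hc : H975.Clo R S (emb R m p) (k₁, t) (k₂, t) < dlt)
    {ξ : Fin 6 → ℝ} (hξ : IsCl ξ) :
    th (oneOf Φ) (k₁, t) ξ S (posE R m p) (shE R m S p) =
      th (oneOf Φ) (k₂, t) ξ S (posE R m p) (shE R m S p) := by
  have hd : ∀ l, ‖dL p.2.2.1 p.2.2.2.1 l‖ ≤ 1 / 128 := fun l => dL_small _ (hy l)
  have hy0 : ∀ k, 0 ≤ p.2.2.1 k := fun k => by linarith [hy k]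
  have hδ0 := dlt_pos
  have hδ := dlt_le
  have hb : ∀ j, ‖(posE R m p).1 j‖ ≤ 6 := root_norm hd
  unfold H975.Clo at hc
  rcases h1 : S (k₁, t) with _ | _ <;> rcases h2 : S (k₂, t) with _ | _ <;> rw [h1, h2] at hc
  · -- both near
    rw [if_pos rfl] at hc
    have hc1 : ‖R.pos (emb R m p) (k₁, t) - R.pos (emb R m p) (k₂, t)‖ < dlt := by
      linarith [norm_nonneg (R.sht S (emb R m p) (k₁, t) - R.sht S (emb R m p) (k₂, t))]
    have hc2 : ‖R.sht S (emb R m p) (k₁, t) - R.sht S (emb R m p) (k₂, t)‖ < dlt := by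
      linarith [norm_nonneg (R.pos (emb R m p) (k₁, t) - R.pos (emb R m p) (k₂, t))]
    have hdist : ∀ j, 1 / 256 ≤ ‖R.pos (emb R m p) (k₁, t) - (posE R m p).1 j‖ := by
      intro j
      rcases hi : R.pl (k₁, t) with k | s
      · rcases hj : R.pl (k₂, t) with l | s'
        · exfalso
          have hl : l ≠ k := by
            rintro rfl
            exact hn l ⟨hi, hj⟩
          have e1 := H975.two_le_norm_ctr (k := k) (l := l) hl
          have e2 := neck_pos hp hy0 hi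
          have e3 := neck_pos hp hy0 hj
          have e4 : ctr k - ctr l = -(R.pos (emb R m p) (k₁, t) - ctr k) +
              (R.pos (emb R m p) (k₁, t) - R.pos (emb R m p) (k₂, t)) +
              (R.pos (emb R m p) (k₂, t) - ctr l) := by ring
          have e5 := norm_add₃_le (a := -(R.pos (emb R m p) (k₁, t) - ctr k))
            (b := R.pos (emb R m p) (k₁, t) - R.pos (emb R m p) (k₂, t))
            (c := R.pos (emb R m p) (k₂, t) - ctr l)
          rw [← e4, norm_neg] at e5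
          have : (1 : ℝ) / 2 ^ 40 < 1 := by norm_num
          linarith
        · have e1 := (zone_near hz ⟨(k₂, t), by simp [hj]⟩ h2).2
          rw [← core_pos hj] at e1
          have e2 : 1 / 128 ≤ ‖R.pos (emb R m p) (k₂, t) - (posE R m p).1 j‖ := core_dist hd e1 j
          have e3 : ‖R.pos (emb R m p) (k₂, t) - (posE R m p).1 j‖ ≤
              ‖R.pos (emb R m p) (k₂, t) - R.pos (emb R m p) (k₁, t)‖ +
              ‖R.pos (emb R m p) (k₁, t) - (posE R m p).1 j‖ :=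
            norm_sub_le_norm_sub_add_norm_sub _ _ _
          rw [norm_sub_rev (R.pos (emb R m p) (k₂, t)) (R.pos (emb R m p) (k₁, t))] at e3
          have : (1 : ℝ) / 2 ^ 40 < 1 / 256 := by norm_num
          linarith
      · have e1 := (zone_near hz ⟨(k₁, t), by simp [hi]⟩ h1).2
        rw [← core_pos hi] at e1
        have e2 : 1 / 128 ≤ ‖R.pos (emb R m p) (k₁, t) - (posE R m p).1 j‖ := core_dist hd e1 j
        linarith
    have hPi := PP_false (m := m) (p := p) h1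
    have hPj := PP_false (m := m) (p := p) h2
    have hPt := pt_PP hv (fin_false (e := posE R m p) h1)
    rw [hPi] at hPt
    refine th_pair (oneOf Φ) hX hv hkl (r := 1 / 256) (by norm_num) hPi hPj (fin_false h1)
      (fin_false h2) hdist ?_ ?_ hξ
    · refine hc1.le.trans ?_
      rw [rad_eq]
      norm_num
      linarith
    · refine same_of_lt (r := 1 / 256) hPt (by norm_num) hdist ?_
      refine hc2.trans_le (hδ.trans ?_)
      norm_num
  · -- near, far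
    rw [if_neg (by simp)] at hc
    have hc1 : ‖R.pos (emb R m p) (k₁, t) * R.pos (emb R m p) (k₂, t) - 1‖ < dlt := by
      linarith [norm_nonneg (R.sht S (emb R m p) (k₂, t) -
        R.sht S (emb R m p) (k₁, t) * R.pos (emb R m p) (k₂, t) ^ 3)]
    have hc2 : ‖R.sht S (emb R m p) (k₂, t) -
        R.sht S (emb R m p) (k₁, t) * R.pos (emb R m p) (k₂, t) ^ 3‖ < dlt := by
      linarith [norm_nonneg (R.pos (emb R m p) (k₁, t) * R.pos (emb R m p) (k₂, t) - 1)]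
    have hx := near_pos hp hy0 hz h1
    have hw := far_pos hFar hz h2
    have hPi := PP_false (m := m) (p := p) h1
    have hPj := PP_true (m := m) (p := p) h2
    have hPt := pt_PP hv (fin_false (e := posE R m p) h1)
    rw [hPi] at hPt
    have hvj := hv (k₂, t)
    rw [h2] at hvj
    obtain ⟨hvj1, hvj2⟩ := hvj
    have hwx : ‖R.pos (emb R m p) (k₂, t) * R.pos (emb R m p) (k₁, t) - 1‖ < dlt := by
      rw [mul_comm]
      exact hc1
    have hyb : ‖R.sht S (emb R m p) (k₁, t)‖ ≤ 17 ^ 3 := by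
      have e1 : ‖R.sht S (emb R m p) (k₁, t)‖ ^ 2 ≤ ((17 : ℝ) ^ 3) ^ 2 := by
        have e2 : R.sht S (emb R m p) (k₁, t) ^ 2 =
          fb (posE R m p).1 (R.pos (emb R m p) (k₁, t)) := hPt.1
        rw [← norm_pow, e2, fb, norm_prod]
        calc ∏ j, ‖R.pos (emb R m p) (k₁, t) - (posE R m p).1 j‖ ≤ ∏ _j : Fin 6, (17 : ℝ) := by
              refine Finset.prod_le_prod (fun _ _ => norm_nonneg _) fun j _ => ?_
              have := norm_sub_le (R.pos (emb R m p) (k₁, t)) ((posE R m p).1 j)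
              have := hb j
              linarith
          _ = _ := by rw [Finset.prod_const, Finset.card_univ, Fintype.card_fin, ← pow_mul]
      exact le_of_sq_le_sq e1 (by norm_num)
    obtain ⟨a1, a2, a3, a4⟩ := mixed hb hw hvj1 hvj2 hx hwx (y := R.sht S (emb R m p) (k₁, t)) (by
      show ‖R.sht S (emb R m p) (k₁, t) - R.sht S (emb R m p) (k₂, t) *
        R.pos (emb R m p) (k₁, t) ^ 3‖ ≤ 1 / 100
      have e1 : R.sht S (emb R m p) (k₁, t) - R.sht S (emb R m p) (k₂, t) *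
          R.pos (emb R m p) (k₁, t) ^ 3 =
          -(R.sht S (emb R m p) (k₁, t) * ((R.pos (emb R m p) (k₂, t) *
            R.pos (emb R m p) (k₁, t)) * ((R.pos (emb R m p) (k₂, t) *
            R.pos (emb R m p) (k₁, t)) * (R.pos (emb R m p) (k₂, t) *
            R.pos (emb R m p) (k₁, t))) - 1)) -
          (R.sht S (emb R m p) (k₂, t) - R.sht S (emb R m p) (k₁, t) *
            R.pos (emb R m p) (k₂, t) ^ 3) * R.pos (emb R m p) (k₁, t) ^ 3 := by ring
      have hsm : ‖R.pos (emb R m p) (k₂, t) * R.pos (emb R m p) (k₁, t) - 1‖ ≤ 1 / 2 ^ 40 :=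
        hwx.le.trans hδ
      have e2 := near_mul hsm (near_mul hsm hsm)
      rw [e1]
      refine (norm_sub_le _ _).trans ?_
      rw [norm_neg, norm_mul, norm_mul, norm_pow]
      have e3 : ‖R.sht S (emb R m p) (k₁, t)‖ * ‖(R.pos (emb R m p) (k₂, t) *
            R.pos (emb R m p) (k₁, t)) * ((R.pos (emb R m p) (k₂, t) *
            R.pos (emb R m p) (k₁, t)) * (R.pos (emb R m p) (k₂, t) *
            R.pos (emb R m p) (k₁, t))) - 1‖ ≤ 1 / 200 := by
        refine (mul_le_mul hyb e2 (norm_nonneg _) (by norm_num)).trans ?_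
        norm_num
      have e4 : ‖R.sht S (emb R m p) (k₂, t) - R.sht S (emb R m p) (k₁, t) *
            R.pos (emb R m p) (k₂, t) ^ 3‖ * ‖R.pos (emb R m p) (k₁, t)‖ ^ 3 ≤ 1 / 200 := by
        refine (mul_le_mul (hc2.le.trans hδ) (pow_le_pow_left₀ (norm_nonneg _) hx 3)
          (by positivity) (by norm_num)).trans ?_
        norm_num
      linarith)
    exact (th_pair (oneOf Φ) hX hv hkl.symm (r := 1) one_pos hPj hPi (fun h => a4 h.2)
      (fin_false h1) a1 a2 a3 hξ).symm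
  · -- far, near
    rw [if_neg (by simp)] at hc
    have hc1 : ‖R.pos (emb R m p) (k₁, t) * R.pos (emb R m p) (k₂, t) - 1‖ < dlt := by
      linarith [norm_nonneg (R.sht S (emb R m p) (k₂, t) -
        R.sht S (emb R m p) (k₁, t) * R.pos (emb R m p) (k₂, t) ^ 3)]
    have hc2 : ‖R.sht S (emb R m p) (k₂, t) -
        R.sht S (emb R m p) (k₁, t) * R.pos (emb R m p) (k₂, t) ^ 3‖ < dlt := by
      linarith [norm_nonneg (R.pos (emb R m p) (k₁, t) * R.pos (emb R m p) (k₂, t) - 1)]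
    have hx := near_pos hp hy0 hz h2
    have hw := far_pos hFar hz h1
    have hPi := PP_true (m := m) (p := p) h1
    have hPj := PP_false (m := m) (p := p) h2
    have hvi := hv (k₁, t)
    rw [h1] at hvi
    obtain ⟨hvi1, hvi2⟩ := hvi
    obtain ⟨a1, a2, a3, a4⟩ := mixed hb hw hvi1 hvi2 hx hc1
      (hc2.le.trans (hδ.trans (by norm_num)))
    exact th_pair (oneOf Φ) hX hv hkl (r := 1) one_pos hPi hPj (fun h => a4 h.2)
      (fin_false h2) a1 a2 a3 hξ
  · -- both far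
    rw [if_pos rfl] at hc
    have hc1 : ‖R.pos (emb R m p) (k₁, t) - R.pos (emb R m p) (k₂, t)‖ < dlt := by
      linarith [norm_nonneg (R.sht S (emb R m p) (k₁, t) - R.sht S (emb R m p) (k₂, t))]
    have hc2 : ‖R.sht S (emb R m p) (k₁, t) - R.sht S (emb R m p) (k₂, t)‖ < dlt := by
      linarith [norm_nonneg (R.pos (emb R m p) (k₁, t) - R.pos (emb R m p) (k₂, t))]
    have hPi := PP_true (m := m) (p := p) h1
    have hPj := PP_true (m := m) (p := p) h2
    have hvi := hv (k₁, t)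
    rw [h1] at hvi
    obtain ⟨hvi1, hvi2⟩ := hvi
    have hvj := hv (k₂, t)
    rw [h2] at hvj
    obtain ⟨hvj1, hvj2⟩ := hvj
    by_cases hdeep : ‖R.pos (emb R m p) (k₁, t)‖ < 1 / 2 ^ 15
    · have hdeep2 : ‖R.pos (emb R m p) (k₂, t)‖ < 1 / 2 ^ 14 := by
        have e1 := norm_sub_norm_le (R.pos (emb R m p) (k₂, t)) (R.pos (emb R m p) (k₁, t))
        rw [norm_sub_rev] at e1
        have : (1 : ℝ) / 2 ^ 15 + 1 / 2 ^ 40 < 1 / 2 ^ 14 := by norm_num
        linarith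
      have hR : H604.Rr (posE R m p).1 ≤ 120 := Rr_le hd
      have hR0 := H604.Rr_pos (posE R m p).1
      have e1 := far_sign hb (w := R.pos (emb R m p) (k₁, t)) (hdeep.le.trans (by norm_num)) hvi1
      have e2 := far_sign hb (w := R.pos (emb R m p) (k₂, t)) (hdeep2.le.trans (by norm_num)) hvj1
      have hsm : ‖shE R m S p (k₁, t) - shE R m S p (k₂, t)‖ < 1 :=
        hc2.trans_le (hδ.trans (by norm_num))
      refine th_inf Φ hX hv h1 h2 ?_ ?_ ?_ hξ
      · show 2 ^ 7 * H604.Rr (posE R m p).1 * ‖R.pos (emb R m p) (k₁, t)‖ < 1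
        have e3 : 2 ^ 7 * H604.Rr (posE R m p).1 * ‖R.pos (emb R m p) (k₁, t)‖ ≤
            2 ^ 7 * 120 * (1 / 2 ^ 15) := by gcongr
        exact e3.trans_lt (by norm_num)
      · show 2 ^ 7 * H604.Rr (posE R m p).1 * ‖R.pos (emb R m p) (k₂, t)‖ < 1
        have e3 : 2 ^ 7 * H604.Rr (posE R m p).1 * ‖R.pos (emb R m p) (k₂, t)‖ ≤
            2 ^ 7 * 120 * (1 / 2 ^ 14) := by gcongr
        exact e3.trans_lt (by norm_num)
      · rcases e1 with ⟨p1, p2⟩ | ⟨p1, p2⟩ <;> rcases e2 with ⟨q1, q2⟩ | ⟨q1, q2⟩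
        · exact ⟨fun _ => q1, fun _ => p1⟩
        · exfalso
          have e3 : (2 : ℂ) = -(shE R m S p (k₁, t) - 1) +
            (shE R m S p (k₁, t) - shE R m S p (k₂, t)) + (shE R m S p (k₂, t) + 1) := by ring
          have e4 := norm_add₃_le (a := -(shE R m S p (k₁, t) - 1))
            (b := shE R m S p (k₁, t) - shE R m S p (k₂, t)) (c := shE R m S p (k₂, t) + 1)
          rw [← e3, norm_neg, Complex.norm_ofNat] at e4
          linarith
        · exfalso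
          have e3 : (2 : ℂ) = (shE R m S p (k₁, t) + 1) -
            (shE R m S p (k₁, t) - shE R m S p (k₂, t)) - (shE R m S p (k₂, t) - 1) := by ring
          have e4 := norm_sub_le ((shE R m S p (k₁, t) + 1) -
            (shE R m S p (k₁, t) - shE R m S p (k₂, t))) (shE R m S p (k₂, t) - 1)
          have e5 := norm_sub_le (shE R m S p (k₁, t) + 1)
            (shE R m S p (k₁, t) - shE R m S p (k₂, t))
          rw [← e3, Complex.norm_ofNat] at e4
          linarith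
        · exact ⟨fun h => absurd h (not_lt.2 p1.le), fun h => absurd h (not_lt.2 q1.le)⟩
    · push Not at hdeep
      obtain ⟨a1, a2, a3, a4, a5⟩ := farfar hb (far_pos hFar hz h1) hvi1 hvi2 hdeep hc1 hc2
      exact th_pair (oneOf Φ) hX hv hkl (r := 1) one_pos hPi hPj (fun h => a4 h.2)
        (fun h => a5 h.2) a1 a2 a3 hξ

end Pair

/-- **The field `col` of `Asy`** for the gauge of the cut-off form of a flat family. -/
theorem col_of (Φ : FlatFam) {Θ : Gauge} (hΘ : Θ.θ = th (oneOf Φ)) : H803.Col Θ := by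
  refine ⟨dlt, 14, dlt_pos, ?_⟩
  rintro R m S hFar p ⟨hp, hy, -, hz, -⟩ ⟨k₁, t⟩ ⟨k₂, t'⟩ hij ht hclose ξ hξ
  obtain rfl : t = t' := ht
  have hkl : k₁ ≠ k₂ := fun h => hij (by rw [h])
  unfold leg
  rw [hΘ]
  have key : th (oneOf Φ) (k₁, t) ξ S (posE R m p) (shE R m S p) =
      th (oneOf Φ) (k₂, t) ξ S (posE R m p) (shE R m S p) := by
    by_cases hgood : (posE R m p).1 ∈ XX ∧
        OnC S (rts (posE R m p).1) (posE R m p).2 (shE R m S p)
    · obtain ⟨hX, hv⟩ := hgood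
      rcases hclose with ⟨hn, hc⟩ | ⟨k, hi, hj, hr, hc⟩
      · exact core_case Φ hFar hp hy hz hX hv hkl hn hc hξ
      · exact neck_case Φ hFar hp hy hX hv hkl hi hj hr hc hξ
    · rw [th_bad _ _ hgood, th_bad _ _ hgood]
  rw [key]

end Vale.Agent.P273.H965
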