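import Vale.Agent.P273.H965.ColG
import Vale.Agent.P273.H973.Gauge0

/-!
# P273, row ASY0 (helper965): the field `col` of `Asy` for the gauge `gauge0`
-/

namespace Vale.Agent.P273.H965

/-- **close marks of one type have the same form** -/
theorem col0 : H803.Col H973.gauge0 := col_of H580.theFlatFam rfl

end Vale.Agent.P273.H965
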