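import Vale.Agent.P273.H857.Stm

/-!
Flip of a label to the right of the starting point.
-/

open Complex Set Filter Topology MeasureTheory
open scoped ContDiff

namespace Vale.Agent.P273.H965

open Vale.Agent.P273.H857

noncomputable section

theorem P_eq (hI : StmINV) {k : ℕ} {B : Finset (Fin 6)} {b : C6} {x : ℂ} {g : ℝ → ℝ} (hk : k ≤ 1)
    (hb : Function.Injective b) (hg : Adm B b x g) : P k B b x = PG k B b x g := by
  have h : ∃ g, Adm B b x g := ⟨g, hg⟩
  rw [P, dif_pos h]
  exact (hI k B b x hk hb).2 _ _ h.choose_spec hg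

/-- the segment between two heights -/
def seg (g₀ g₁ : ℝ → ℝ) (s t : ℝ) : ℝ := (1 - s) * g₀ t + s * g₁ t

theorem low (x a : ℂ) {g₀ g₁ : ℝ → ℝ} (h0 : Continuous g₀) (h1 : Continuous g₁)
    (h : ∀ s ∈ Icc (0 : ℝ) 1, ∀ t, 0 ≤ t → gam x (seg g₀ g₁ s) t ≠ a) :
    ∃ c > (0 : ℝ), c ≤ 1 ∧ ∀ s ∈ Icc (0 : ℝ) 1, ∀ t, 0 ≤ t →
      c * (1 + t) ≤ ‖gam x (seg g₀ g₁ s) t - a‖ := by
  set T : ℝ := 2 * ‖a - x‖ + 1 with hT
  have hT0 : 0 < T := by positivity
  have hc : Continuous fun p : ℝ × ℝ => ‖gam x (seg g₀ g₁ p.1) p.2 - a‖ := by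
    unfold gam seg; fun_prop
  have hK : IsCompact (Icc (0 : ℝ) 1 ×ˢ Icc (0 : ℝ) T) := isCompact_Icc.prod isCompact_Icc
  obtain ⟨p, hp, hmin⟩ := hK.exists_isMinOn ⟨(0, 0), by simp [hT0.le]⟩ hc.continuousOn
  set δ := ‖gam x (seg g₀ g₁ p.1) p.2 - a‖ with hδ
  have hδ0 : 0 < δ := norm_pos_iff.2 (sub_ne_zero.2 (h _ hp.1 _ hp.2.1))
  refine ⟨min (1 / 2) (δ / (1 + T)), by positivity, (min_le_left _ _).trans (by norm_num),
    fun s hs t ht => ?_⟩
  rcases le_total t T with h3 | h3
  · calc min (1 / 2) (δ / (1 + T)) * (1 + t) ≤ δ / (1 + T) * (1 + T) := by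
          gcongr
          exact min_le_right _ _
      _ = δ := by field_simp
      _ ≤ _ := hmin (show (s, t) ∈ Icc (0 : ℝ) 1 ×ˢ Icc (0 : ℝ) T from ⟨hs, ht, h3⟩)
  · have e : (gam x (seg g₀ g₁ s) t - a).re = t - (a - x).re := by
      rw [sub_re, gam_re, sub_re]; ring
    have h4 : t - ‖a - x‖ ≤ ‖gam x (seg g₀ g₁ s) t - a‖ := by
      have h5 := abs_re_le_norm (a - x)
      have h6 := abs_re_le_norm (gam x (seg g₀ g₁ s) t - a)
      rw [e] at h6
      have h7 := le_abs_self ((a - x).re)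
      have h8 := le_abs_self (t - (a - x).re)
      linarith
    calc min (1 / 2) (δ / (1 + T)) * (1 + t) ≤ 1 / 2 * (1 + t) := by
          gcongr
          exact min_le_left _ _
      _ ≤ t - ‖a - x‖ := by linarith
      _ ≤ _ := h4

/-- the dominating function -/
def dom (a : ℝ) (t : ℝ) : ℝ := (1 / Real.sqrt t + 1 / Real.sqrt |t - a|) / (1 + t)

theorem inv_sqrt {t : ℝ} (ht : 0 ≤ t) : 1 / Real.sqrt t = t ^ (-(1 / 2) : ℝ) := by
  rw [Real.rpow_neg ht, Real.sqrt_eq_rpow, one_div]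

theorem integrable_dom {a : ℝ} (ha : 0 < a) : IntegrableOn (dom a) (Ioi 0) := by
  have hm : Measurable (dom a) := by
    unfold dom
    fun_prop
  set A : ℝ := 2 * a + 1 with hA
  have hA0 : 0 < A := by positivity
  have haA : a ≤ A := by linarith
  have hU : Ioi (0 : ℝ) = Ioc 0 A ∪ Ioi A := (Ioc_union_Ioi_eq_Ioi hA0.le).symm
  rw [hU]
  refine IntegrableOn.union ?_ ?_
  · have h1 : IntervalIntegrable (fun t : ℝ => t ^ (-(1 / 2) : ℝ)) volume 0 A :=
      intervalIntegral.intervalIntegrable_rpow' (by norm_num)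
    have h2 : IntervalIntegrable (fun t : ℝ => (t - a) ^ (-(1 / 2) : ℝ)) volume a A := by
      have h := (intervalIntegral.intervalIntegrable_rpow' (r := -(1 / 2)) (a := 0) (b := A - a)
        (by norm_num)).comp_sub_right a
      simpa using h
    have h3 : IntervalIntegrable (fun t : ℝ => (a - t) ^ (-(1 / 2) : ℝ)) volume 0 a := by
      have h := (intervalIntegral.intervalIntegrable_rpow' (r := -(1 / 2)) (a := a) (b := 0)
        (by norm_num)).comp_sub_left a
      simpa using h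
    have h4 : IntegrableOn (fun t : ℝ => |t - a| ^ (-(1 / 2) : ℝ)) (Ioc 0 A) := by
      have hU2 : Ioc (0 : ℝ) A = Ioc 0 a ∪ Ioc a A := (Ioc_union_Ioc_eq_Ioc ha.le haA).symm
      rw [hU2]
      refine IntegrableOn.union ?_ ?_
      · refine ((intervalIntegrable_iff_integrableOn_Ioc_of_le ha.le).1 h3).congr_fun ?_
          measurableSet_Ioc
        intro t ht
        simp only
        rw [abs_of_nonpos (by linarith [ht.2]), neg_sub]
      · refine ((intervalIntegrable_iff_integrableOn_Ioc_of_le haA).1 h2).congr_fun ?_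
          measurableSet_Ioc
        intro t ht
        simp only
        rw [abs_of_nonneg (by linarith [ht.1])]
    have h5 := ((intervalIntegrable_iff_integrableOn_Ioc_of_le hA0.le).1 h1).add h4
    refine Integrable.mono' h5 hm.aestronglyMeasurable ?_
    refine (ae_restrict_iff' measurableSet_Ioc).2 (ae_of_all _ fun t ht => ?_)
    have ht0 : 0 < t := ht.1
    unfold dom
    rw [inv_sqrt ht0.le, inv_sqrt (abs_nonneg _), Real.norm_of_nonneg (by positivity)]
    simp only [Pi.add_apply]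
    exact div_le_self (by positivity) (by linarith)
  · have h1 : IntegrableOn (fun t : ℝ => 3 * t ^ (-(3 / 2) : ℝ)) (Ioi A) :=
      (integrableOn_Ioi_rpow_of_lt (by norm_num) hA0).const_mul 3
    refine Integrable.mono' h1 hm.aestronglyMeasurable ?_
    refine (ae_restrict_iff' measurableSet_Ioi).2 (ae_of_all _ fun t ht => ?_)
    have ht1 : A < t := ht
    have ht0 : 0 < t := hA0.trans ht1
    unfold dom
    have e1 : 1 / Real.sqrt |t - a| ≤ 2 * (1 / Real.sqrt t) := by
      have h2 : t / 4 ≤ |t - a| := by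
        rw [abs_of_nonneg (by linarith)]
        linarith
      have h3 : Real.sqrt t / 2 ≤ Real.sqrt |t - a| := by
        have h4 := Real.sqrt_le_sqrt h2
        rwa [Real.sqrt_div ht0.le, show (4 : ℝ) = 2 ^ 2 by norm_num,
          Real.sqrt_sq (by norm_num)] at h4
      have h4 : 0 < Real.sqrt t := Real.sqrt_pos.2 ht0
      calc 1 / Real.sqrt |t - a| ≤ 1 / (Real.sqrt t / 2) := by gcongr
        _ = 2 * (1 / Real.sqrt t) := by field_simp
    have e2 : t ^ (-(3 / 2) : ℝ) = 1 / Real.sqrt t * (1 / t) := by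
      have e3 : 1 / t = t ^ (-1 : ℝ) := by rw [Real.rpow_neg_one, one_div]
      rw [inv_sqrt ht0.le, e3, ← Real.rpow_add ht0]
      norm_num
    rw [Real.norm_of_nonneg (by positivity), e2]
    have h5 : 0 < Real.sqrt t := Real.sqrt_pos.2 ht0
    calc (1 / Real.sqrt t + 1 / Real.sqrt |t - a|) / (1 + t)
        ≤ (1 / Real.sqrt t + 2 * (1 / Real.sqrt t)) / t := by
          gcongr
          linarith
      _ = 3 * (1 / Real.sqrt t * (1 / t)) := by ring

/-- the integrand is dominated, uniformly on the segment -/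
theorem bound {k : ℕ} (hk : k ≤ 1) {B : Finset (Fin 6)} {b : C6} {x : ℂ} {m j : Fin 6}
    (hjm : j ≠ m) {c K : ℝ} (hc : 0 < c) (hK : 0 ≤ K) (hxm : x.re < (b m).re) {g : ℝ → ℝ} {t : ℝ}
    (ht : 0 < t) (hta : t ≠ (b m - x).re) (hg : |g t| ≤ K * t) (hd : |deriv g t| ≤ K)
    (h1 : ∀ l, l ≠ m → l ≠ j → c * (1 + t) ≤ ‖gam x g t - b l‖)
    (h2 : c * t ≤ ‖gam x g t - b j‖) :
    ‖igd k B b x g t‖ ≤
      ((‖x‖ + 1 + K) * (1 + K) / (Real.sqrt c * c ^ 2 * Real.sqrt (b m - x).re)) *
        dom (b m - x).re t := by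
  set a : ℝ := (b m - x).re with ha
  have ha0 : 0 < a := by rw [ha, sub_re]; linarith
  set z := gam x g t with hz
  have hzn : ‖z‖ ≤ (‖x‖ + 1 + K) * (1 + t) := by
    have e1 : ‖z‖ ≤ ‖x‖ + (t + K * t) := by
      rw [hz, gam]
      refine (norm_add_le _ _).trans ?_
      gcongr
      refine (norm_add_le _ _).trans ?_
      rw [norm_mul, norm_I, mul_one, norm_real, norm_real, Real.norm_of_nonneg ht.le]
      gcongr
      exact hg
    have h3 := norm_nonneg x
    nlinarith
  have hzk : ‖z‖ ^ k ≤ (‖x‖ + 1 + K) * (1 + t) := by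
    rcases Nat.le_one_iff_eq_zero_or_eq_one.1 hk with rfl | rfl
    · rw [pow_zero]
      have h3 := norm_nonneg x
      nlinarith
    · rw [pow_one]; exact hzn
  have hdn : ‖(1 : ℂ) + deriv g t * I‖ ≤ 1 + K := by
    refine (norm_add_le _ _).trans ?_
    rw [norm_one, norm_mul, norm_I, mul_one, norm_real]
    gcongr
    exact hd
  have hm1 : |t - a| ≤ ‖z - b m‖ := by
    have e : (z - b m).re = t - a := by rw [sub_re, hz, gam_re, ha, sub_re]; ring
    rw [← e]; exact abs_re_le_norm _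
  have hta0 : 0 < |t - a| := abs_pos.2 (sub_ne_zero.2 hta)
  have hsq : Real.sqrt |t - a| * (Real.sqrt (c * t) * (c * (1 + t)) ^ 2) ≤ ‖sq B b z‖ := by
    unfold Vale.Agent.P273.H857.sq
    rw [norm_prod]
    simp only [norm_br]
    rw [← Finset.mul_prod_erase Finset.univ _ (Finset.mem_univ m),
      ← Finset.mul_prod_erase (Finset.univ.erase m) _
        (Finset.mem_erase.2 ⟨hjm, Finset.mem_univ j⟩)]
    have h4 : (c * (1 + t)) ^ 2 ≤
        ∏ l ∈ (Finset.univ.erase m).erase j, Real.sqrt ‖z - b l‖ := by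
      have h5 : (c * (1 + t)) ^ 2 =
          ∏ _l ∈ (Finset.univ.erase m).erase j, Real.sqrt (c * (1 + t)) := by
        rw [Finset.prod_const, Finset.card_erase_of_mem
          (Finset.mem_erase.2 ⟨hjm, Finset.mem_univ j⟩), Finset.card_erase_of_mem
          (Finset.mem_univ m), Finset.card_univ, Fintype.card_fin]
        show _ = Real.sqrt (c * (1 + t)) ^ 4
        rw [show (4 : ℕ) = 2 * 2 by norm_num, pow_mul, Real.sq_sqrt (by positivity)]
      rw [h5]
      refine Finset.prod_le_prod (fun _ _ => Real.sqrt_nonneg _) fun l hl => ?_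
      rw [Finset.mem_erase, Finset.mem_erase] at hl
      exact Real.sqrt_le_sqrt (h1 l hl.2.1 hl.1)
    gcongr
  have hsq0 : 0 < Real.sqrt |t - a| * (Real.sqrt (c * t) * (c * (1 + t)) ^ 2) := by positivity
  have hst : 0 < Real.sqrt t := Real.sqrt_pos.2 ht
  have hsta : 0 < Real.sqrt |t - a| := Real.sqrt_pos.2 hta0
  have hsa : 0 < Real.sqrt a := Real.sqrt_pos.2 ha0
  have hsum : Real.sqrt a ≤ Real.sqrt t + Real.sqrt |t - a| := by
    rw [Real.sqrt_le_left (by positivity)]
    have e1 := Real.sq_sqrt ht.le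
    have e2 := Real.sq_sqrt hta0.le
    have e3 : a ≤ t + |t - a| := by
      have := neg_abs_le (t - a)
      linarith
    nlinarith [mul_pos hst hsta]
  unfold igd
  rw [norm_mul, norm_div, norm_pow, ← hz]
  calc ‖z‖ ^ k / ‖sq B b z‖ * ‖(1 : ℂ) + deriv g t * I‖
      ≤ (‖x‖ + 1 + K) * (1 + t) /
          (Real.sqrt |t - a| * (Real.sqrt (c * t) * (c * (1 + t)) ^ 2)) * (1 + K) := by
        gcongr
    _ = (‖x‖ + 1 + K) * (1 + K) / (Real.sqrt c * c ^ 2) *
          (1 / (Real.sqrt t * Real.sqrt |t - a|)) / (1 + t) := by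
        rw [Real.sqrt_mul hc.le]
        have hsc : 0 < Real.sqrt c := Real.sqrt_pos.2 hc
        field_simp
    _ ≤ (‖x‖ + 1 + K) * (1 + K) / (Real.sqrt c * c ^ 2) *
          ((1 / Real.sqrt t + 1 / Real.sqrt |t - a|) / Real.sqrt a) / (1 + t) := by
        have e4 : 1 / (Real.sqrt t * Real.sqrt |t - a|) ≤
            (1 / Real.sqrt t + 1 / Real.sqrt |t - a|) / Real.sqrt a := by
          have e5 : (1 / Real.sqrt t + 1 / Real.sqrt |t - a|) / Real.sqrt a =
              (Real.sqrt t + Real.sqrt |t - a|) /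
                (Real.sqrt t * Real.sqrt |t - a| * Real.sqrt a) := by
            field_simp
            ring
          rw [e5, div_le_div_iff₀ (by positivity) (by positivity)]
          nlinarith [mul_le_mul_of_nonneg_right hsum (mul_pos hst hsta).le]
        exact div_le_div_of_nonneg_right (mul_le_mul_of_nonneg_left e4 (by positivity))
          (by positivity)
    _ = _ := by
        unfold dom
        field_simp

theorem IsPath.abs_le {g : ℝ → ℝ} (hg : IsPath g) {K : ℝ} (hK : ∀ t, |deriv g t| ≤ K) {t : ℝ}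
    (ht : 0 ≤ t) : |g t| ≤ K * t := by
  have h := Convex.norm_image_sub_le_of_norm_deriv_le (f := g) (C := K) (s := univ) (x := 0)
    (y := t) (fun u _ => (hg.smooth.differentiable (by simp)) u) (fun u _ => hK u) convex_univ
    (mem_univ _) (mem_univ _)
  rwa [hg.zero, sub_zero, sub_zero, Real.norm_eq_abs, Real.norm_of_nonneg ht] at h

theorem deriv_seg {g₀ g₁ : ℝ → ℝ} (h0 : IsPath g₀) (h1 : IsPath g₁) (s t : ℝ) :
    deriv (seg g₀ g₁ s) t = (1 - s) * deriv g₀ t + s * deriv g₁ t := by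
  have dg : DifferentiableAt ℝ g₀ t := (h0.smooth.differentiable (by simp)) t
  have dh : DifferentiableAt ℝ g₁ t := (h1.smooth.differentiable (by simp)) t
  unfold seg
  rw [deriv_fun_add (dg.const_mul _) (dh.const_mul s), deriv_const_mul _ dg, deriv_const_mul _ dh]

theorem sq_ne_zero' {B : Finset (Fin 6)} {b : C6} {z : ℂ} (h : z ∈ Dm B b) :
    Vale.Agent.P273.H857.sq B b z ≠ 0 :=
  H857.sq_ne_zero fun l h1 => Sb_ne_zero (h l) (by rw [h1, sub_self])

theorem continuousAt_igd (k : ℕ) {B : Finset (Fin 6)} {b : C6} {x : ℂ} {g₀ g₁ : ℝ → ℝ}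
    (h0 : IsPath g₀) (h1 : IsPath g₁) {σ t : ℝ} (hz : gam x (seg g₀ g₁ σ) t ∈ Dm B b) :
    ContinuousAt (fun s => igd k B b x (seg g₀ g₁ s) t) σ := by
  have hg : ContinuousAt (fun s : ℝ => gam x (seg g₀ g₁ s) t) σ := by
    unfold gam seg
    fun_prop
  have hs : ContinuousAt (fun s : ℝ => Vale.Agent.P273.H857.sq B b (gam x (seg g₀ g₁ s) t)) σ := by
    have h2 : ContinuousAt (fun z : ℂ => Vale.Agent.P273.H857.sq B b z)
        (gam x (seg g₀ g₁ σ) t) :=
      ContinuousAt.comp (f := fun z : ℂ => (b, z))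
        (g := fun p : C6 × ℂ => Vale.Agent.P273.H857.sq B p.1 p.2)
        (analyticAt_sq hz).continuousAt (by fun_prop)
    exact ContinuousAt.comp (f := fun s : ℝ => gam x (seg g₀ g₁ s) t) h2 hg
  unfold igd
  simp only [deriv_seg h0 h1]
  exact ((hg.pow k).div hs (sq_ne_zero' hz)).mul (by fun_prop)

theorem sqj_insert {B : Finset (Fin 6)} (b : C6) (m : Fin 6) (z : ℂ) :
    sqj m (insert m B) b z = sqj m B b z := by
  unfold sqj
  refine Finset.prod_congr rfl fun l hl => ?_
  have hlm : l ≠ m := (Finset.mem_erase.1 hl).1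
  unfold br
  simp [Finset.mem_insert, hlm]

theorem sq_insert_right {B : Finset (Fin 6)} {b : C6} {m : Fin 6} (hm : m ∉ B) {z : ℂ}
    (h : (b m).re < z.re) :
    Vale.Agent.P273.H857.sq (insert m B) b z = Vale.Agent.P273.H857.sq B b z := by
  rw [sq_eq m, sq_eq m B, sqj_insert]
  have e1 : br (insert m B) m (z - b m) = ru (z - b m) := by
    unfold br
    rw [if_pos (Finset.mem_insert_self m B)]
  have e2 : br B m (z - b m) = rt (z - b m) := by
    unfold br
    rw [if_neg hm]
  rw [e1, e2, rt_eq_ru (by rw [sub_re]; linarith)]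

theorem sq_insert_left {B : Finset (Fin 6)} {b : C6} {m : Fin 6} (hm : m ∉ B) {z : ℂ}
    (h : z.re < (b m).re) :
    Vale.Agent.P273.H857.sq (insert m B) b z = -Vale.Agent.P273.H857.sq B b z := by
  rw [sq_eq m, sq_eq m B, sqj_insert]
  have e1 : br (insert m B) m (z - b m) = ru (z - b m) := by
    unfold br
    rw [if_pos (Finset.mem_insert_self m B)]
  have e2 : br B m (z - b m) = rt (z - b m) := by
    unfold br
    rw [if_neg hm]
  rw [e1, e2, rt_eq_neg_ru (by rw [sub_re]; linarith)]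
  ring

/-- the sequence that tends to zero -/
def un (n : ℕ) : ℝ := 1 / ((n : ℝ) + 1)

theorem un_pos (n : ℕ) : 0 < un n := by
  unfold un
  positivity

theorem un_le (n : ℕ) : un n ≤ 1 := by
  unfold un
  rw [div_le_one (by positivity)]
  have : (0 : ℝ) ≤ n := Nat.cast_nonneg n
  linarith

theorem tendsto_un : Tendsto un atTop (𝓝 0) := tendsto_one_div_add_atTop_nhds_zero_nat

/-- **row GP-FLIP, left half** -/
theorem stmFLIPL (hE : StmEX) (hI : StmINV) : StmFLIPL := by
  intro k B b x m hk hb hm hOK hOK' hxm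
  obtain ⟨g₁, h1⟩ := hE B b x hOK
  obtain ⟨g₀, h0⟩ := hE (insert m B) b x hOK'
  set a : ℝ := (b m - x).re with ha
  set y : ℝ := (b m - x).im with hy
  have ha0 : 0 < a := by rw [ha, sub_re]; linarith
  have hmx : b m ≠ x := by
    intro h
    rw [h] at hxm
    exact lt_irrefl _ hxm
  have c0 : g₀ a < y := (h0.2 m hmx ha0.le).1 (Finset.mem_insert_self m B)
  have c1 : y < g₁ a := (h1.2 m hmx ha0.le).2 hm
  have c2 : 0 < g₁ a - g₀ a := by linarith
  set σ : ℝ := (y - g₀ a) / (g₁ a - g₀ a) with hσ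
  have hσ0 : 0 < σ := div_pos (by linarith) c2
  have hσ1 : σ < 1 := by rw [hσ, div_lt_one c2]; linarith
  have hsa : ∀ s, seg g₀ g₁ s a - y = (s - σ) * (g₁ a - g₀ a) := by
    intro s
    rw [hσ]
    unfold seg
    field_simp
    ring
  have hσe : seg g₀ g₁ σ a = y := by
    have h := hsa σ
    rw [sub_self, zero_mul] at h
    linarith
  have hl : ∀ s ∈ Icc (0 : ℝ) 1, ∀ l, l ≠ m → b l ≠ x → 0 ≤ (b l - x).re →
      (l ∈ B → seg g₀ g₁ s (b l - x).re < (b l - x).im) ∧
        (l ∉ B → (b l - x).im < seg g₀ g₁ s (b l - x).re) := by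
    intro s hs l hlm hlx hlr
    obtain ⟨a1, a2⟩ := h0.2 l hlx hlr
    obtain ⟨d1, d2⟩ := h1.2 l hlx hlr
    constructor
    · intro hB
      have e1 := a1 (Finset.mem_insert_of_mem hB)
      have e2 := d1 hB
      unfold seg
      rcases hs.1.eq_or_lt with h3 | h3
      · rw [← h3]; simpa using e1
      · have h4 : (1 - s) * g₀ (b l - x).re ≤ (1 - s) * (b l - x).im :=
          mul_le_mul_of_nonneg_left e1.le (by linarith [hs.2])
        have h5 : s * g₁ (b l - x).re < s * (b l - x).im := mul_lt_mul_of_pos_left e2 h3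
        linarith
    · intro hB
      have e1 := a2 (fun h => by
        rcases Finset.mem_insert.1 h with h | h
        · exact hlm h
        · exact hB h)
      have e2 := d2 hB
      unfold seg
      rcases hs.1.eq_or_lt with h3 | h3
      · rw [← h3]; simpa using e1
      · have h4 : (1 - s) * (b l - x).im ≤ (1 - s) * g₀ (b l - x).re :=
          mul_le_mul_of_nonneg_left e1.le (by linarith [hs.2])
        have h5 : s * (b l - x).im < s * g₁ (b l - x).re := mul_lt_mul_of_pos_left e2 h3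
        linarith
  have hP : ∀ s, IsPath (seg g₀ g₁ s) := fun s => h0.1.comb h1.1 _ _
  have hA0 : ∀ s ∈ Icc (0 : ℝ) 1, s < σ → Adm (insert m B) b x (seg g₀ g₁ s) := by
    intro s hs hsσ
    refine ⟨hP s, fun l hlx hlr => ?_⟩
    by_cases hlm : l = m
    · subst hlm
      refine ⟨fun _ => ?_, fun h => absurd (Finset.mem_insert_self _ _) h⟩
      have h := hsa s
      have h2 : (s - σ) * (g₁ a - g₀ a) < 0 := mul_neg_of_neg_of_pos (by linarith) c2
      rw [← ha, ← hy]
      linarith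
    · obtain ⟨e1, e2⟩ := hl s hs l hlm hlx hlr
      exact ⟨fun h => e1 ((Finset.mem_insert.1 h).resolve_left hlm),
        fun h => e2 fun h2 => h (Finset.mem_insert_of_mem h2)⟩
  have hA1 : ∀ s ∈ Icc (0 : ℝ) 1, σ < s → Adm B b x (seg g₀ g₁ s) := by
    intro s hs hsσ
    refine ⟨hP s, fun l hlx hlr => ?_⟩
    by_cases hlm : l = m
    · subst hlm
      refine ⟨fun h => absurd h hm, fun _ => ?_⟩
      have h := hsa s
      have h2 : 0 < (s - σ) * (g₁ a - g₀ a) := mul_pos (by linarith) c2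
      rw [← ha, ← hy]
      linarith
    · exact hl s hs l hlm hlx hlr
  -- lower bounds
  have hlow : ∀ l : Fin 6, ∃ c > (0 : ℝ), c ≤ 1 ∧ (l ≠ m → b l ≠ x → ∀ s ∈ Icc (0 : ℝ) 1, ∀ t,
      0 ≤ t → c * (1 + t) ≤ ‖gam x (seg g₀ g₁ s) t - b l‖) := by
    intro l
    by_cases hlm : l ≠ m ∧ b l ≠ x
    · obtain ⟨c, hc, hc1, h⟩ := low x (b l) h0.1.smooth.continuous h1.1.smooth.continuous
        (g₀ := g₀) (g₁ := g₁) (fun s hs t ht he => by
          have e1 : t = (b l - x).re := by rw [← he, sub_re, gam_re]; ring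
          have e2 : seg g₀ g₁ s t = (b l - x).im := by rw [← he, sub_im, gam_im]; ring
          obtain ⟨f1, f2⟩ := hl s hs l hlm.1 hlm.2 (e1 ▸ ht)
          rw [← e1] at f1 f2
          rw [e2] at f1 f2
          by_cases hlB : l ∈ B
          · exact lt_irrefl _ (f1 hlB)
          · exact lt_irrefl _ (f2 hlB))
      exact ⟨c, hc, hc1, fun _ _ => h⟩
    · exact ⟨1, one_pos, le_rfl, fun h2 h3 => absurd ⟨h2, h3⟩ hlm⟩
  choose cf hcf0 hcf1 hcf using hlow
  set c : ℝ := Finset.univ.inf' ⟨0, Finset.mem_univ _⟩ cf with hc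
  have hc0 : 0 < c := (Finset.lt_inf'_iff _).2 fun l _ => hcf0 l
  have hcle : ∀ l, c ≤ cf l := fun l => Finset.inf'_le _ (Finset.mem_univ l)
  have hc1 : c ≤ 1 := (hcle 0).trans (hcf1 0)
  obtain ⟨j, hjm, hj⟩ : ∃ j : Fin 6, j ≠ m ∧ ∀ l, l ≠ m → l ≠ j → b l ≠ x := by
    by_cases hjx : ∃ j, b j = x
    · obtain ⟨j, hj⟩ := hjx
      refine ⟨j, fun h => hmx (h ▸ hj), fun l _ hlj h => hlj (hb (h.trans hj.symm))⟩
    · obtain ⟨j, hj⟩ := exists_ne m
      exact ⟨j, hj, fun l _ _ h => hjx ⟨l, h⟩⟩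
  obtain ⟨K0, hK0⟩ := h0.1.bdd
  obtain ⟨K1, hK1⟩ := h1.1.bdd
  set K : ℝ := K0 + K1 with hK
  have hK00 : 0 ≤ K0 := (abs_nonneg _).trans (hK0 0)
  have hK10 : 0 ≤ K1 := (abs_nonneg _).trans (hK1 0)
  have hKs : ∀ s ∈ Icc (0 : ℝ) 1, ∀ t, |deriv (seg g₀ g₁ s) t| ≤ K := by
    intro s hs t
    rw [deriv_seg h0.1 h1.1]
    refine (abs_add_le _ _).trans ?_
    rw [abs_mul, abs_mul, abs_of_nonneg (by linarith [hs.2] : (0 : ℝ) ≤ 1 - s),
      abs_of_nonneg hs.1]
    have e1 := mul_le_mul_of_nonneg_left (hK0 t) (by linarith [hs.2] : (0 : ℝ) ≤ 1 - s)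
    have e2 := mul_le_mul_of_nonneg_left (hK1 t) hs.1
    have e3 : (1 - s) * K0 ≤ K0 := by nlinarith [hs.1]
    have e4 : s * K1 ≤ K1 := by nlinarith [hs.2]
    linarith
  set C : ℝ := (‖x‖ + 1 + K) * (1 + K) / (Real.sqrt c * c ^ 2 * Real.sqrt (b m - x).re) with hC
  have hbd : ∀ B' : Finset (Fin 6), ∀ s ∈ Icc (0 : ℝ) 1, ∀ t, 0 < t → t ≠ a →
      ‖igd k B' b x (seg g₀ g₁ s) t‖ ≤ C * dom a t := by
    intro B' s hs t ht hta
    refine bound hk hjm hc0 (by positivity) hxm ht hta
      (IsPath.abs_le (hP s) (hKs s hs) ht.le) (hKs s hs t) (fun l hlm hlj => ?_) ?_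
    · refine le_trans ?_ (hcf l hlm (hj l hlm hlj) s hs t ht.le)
      exact mul_le_mul_of_nonneg_right (hcle l) (by linarith)
    · by_cases hjx : b j = x
      · rw [hjx]
        have e : (gam x (seg g₀ g₁ s) t - x).re = t := by rw [sub_re, gam_re]; ring
        calc c * t ≤ 1 * t := mul_le_mul_of_nonneg_right hc1 ht.le
          _ = (gam x (seg g₀ g₁ s) t - x).re := by rw [e, one_mul]
          _ ≤ |(gam x (seg g₀ g₁ s) t - x).re| := le_abs_self _
          _ ≤ _ := abs_re_le_norm _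
      · refine le_trans ?_ (hcf j hjm hjx s hs t ht.le)
        calc c * t ≤ cf j * t := mul_le_mul_of_nonneg_right (hcle j) ht.le
          _ ≤ cf j * (1 + t) := mul_le_mul_of_nonneg_left (by linarith) (hcf0 j).le
  have hne : ∀ᵐ t ∂volume.restrict (Ioi (0 : ℝ)), 0 < t ∧ t ≠ a := by
    rw [ae_restrict_iff' measurableSet_Ioi]
    have h3 : ∀ᵐ t : ℝ ∂volume, t ≠ a := by
      rw [ae_iff]
      simp
    filter_upwards [h3] with t ht ht0
    exact ⟨ht0, ht⟩
  -- the point of the degenerate path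
  have hmem : ∀ B' : Finset (Fin 6), (∀ l, l ≠ m → (l ∈ B' ↔ l ∈ B)) → ∀ t, 0 < t → t ≠ a →
      gam x (seg g₀ g₁ σ) t ∈ Dm B' b := by
    intro B' hB' t ht hta l
    rw [mem_Sb_iff]
    intro h3
    rw [sub_re, gam_re] at h3
    have e : (b l - x).re = t := by rw [sub_re]; linarith
    have hlm : l ≠ m := by
      rintro rfl
      exact hta e.symm
    have hlx : b l ≠ x := by
      intro h4
      rw [h4, sub_self, zero_re] at e
      linarith
    obtain ⟨f1, f2⟩ := hl σ ⟨hσ0.le, hσ1.le⟩ l hlm hlx (by rw [e]; exact ht.le)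
    rw [e] at f1 f2
    rw [sub_im, gam_im]
    rw [sub_im] at f1 f2
    refine ⟨fun h5 => ?_, fun h5 => ?_⟩
    · have := f1 ((hB' l hlm).1 h5)
      linarith
    · have := f2 fun h6 => h5 ((hB' l hlm).2 h6)
      linarith
  set s₀ : ℕ → ℝ := fun n => σ * (1 - un n) with hs₀
  set s₁ : ℕ → ℝ := fun n => σ + (1 - σ) * un n with hs₁
  have m0 : ∀ n, s₀ n ∈ Icc (0 : ℝ) 1 := fun n => by
    have h3 := un_pos n
    have h4 := un_le n
    constructor
    · exact mul_nonneg hσ0.le (by linarith)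
    · show σ * (1 - un n) ≤ 1
      nlinarith
  have m1 : ∀ n, s₁ n ∈ Icc (0 : ℝ) 1 := fun n => by
    have h3 := un_pos n
    have h4 := un_le n
    constructor
    · show 0 ≤ σ + (1 - σ) * un n
      nlinarith
    · show σ + (1 - σ) * un n ≤ 1
      nlinarith
  have l0 : ∀ n, s₀ n < σ := fun n => by
    have h3 := un_pos n
    show σ * (1 - un n) < σ
    nlinarith
  have l1 : ∀ n, σ < s₁ n := fun n => by
    have h3 := un_pos n
    show σ < σ + (1 - σ) * un n
    nlinarith
  have t0 : Tendsto s₀ atTop (𝓝 σ) := by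
    have h3 : Tendsto (fun n => σ * (1 - un n)) atTop (𝓝 (σ * (1 - 0))) :=
      (tendsto_const_nhds.sub tendsto_un).const_mul σ
    simpa using h3
  have t1 : Tendsto s₁ atTop (𝓝 σ) := by
    have h3 : Tendsto (fun n => σ + (1 - σ) * un n) atTop (𝓝 (σ + (1 - σ) * 0)) :=
      tendsto_const_nhds.add (tendsto_un.const_mul _)
    simpa using h3
  have i0 : ∀ n, IntegrableOn (igd k (insert m B) b x (seg g₀ g₁ (s₀ n))) (Ioi 0) := fun n =>
    (hI k (insert m B) b x hk hb).1 _ (hA0 _ (m0 n) (l0 n))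
  have i1 : ∀ n, IntegrableOn (igd k B b x (seg g₀ g₁ (s₁ n))) (Ioi 0) := fun n =>
    (hI k B b x hk hb).1 _ (hA1 _ (m1 n) (l1 n))
  have hconst : ∀ n, ∫ t in Ioi (0 : ℝ), (igd k (insert m B) b x (seg g₀ g₁ (s₀ n)) t +
      igd k B b x (seg g₀ g₁ (s₁ n)) t) = -(P k (insert m B) b x + P k B b x) := by
    intro n
    rw [integral_add (i0 n) (i1 n), P_eq hI hk hb (hA0 _ (m0 n) (l0 n)),
      P_eq hI hk hb (hA1 _ (m1 n) (l1 n))]
    unfold PG
    ring
  have hlim : Tendsto (fun n => ∫ t in Ioi (0 : ℝ),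
      (igd k (insert m B) b x (seg g₀ g₁ (s₀ n)) t + igd k B b x (seg g₀ g₁ (s₁ n)) t)) atTop
      (𝓝 (∫ t in Ioi (0 : ℝ), (Ioi a).indicator
        (fun t => 2 * igd k B b x (seg g₀ g₁ σ) t) t)) := by
    refine tendsto_integral_of_dominated_convergence (fun t => C * dom a t + C * dom a t)
      (fun n => ((i0 n).add (i1 n)).aestronglyMeasurable)
      (((integrable_dom ha0).const_mul C).add ((integrable_dom ha0).const_mul C))
      (fun n => ?_) ?_
    · filter_upwards [hne] with t ht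
      exact (norm_add_le _ _).trans
        (add_le_add (hbd _ _ (m0 n) t ht.1 ht.2) (hbd _ _ (m1 n) t ht.1 ht.2))
    · filter_upwards [hne] with t ht
      have z0 := hmem (insert m B) (fun l hlm => by
        rw [Finset.mem_insert]
        exact ⟨fun h => h.resolve_left hlm, Or.inr⟩) t ht.1 ht.2
      have z1 := hmem B (fun l _ => Iff.rfl) t ht.1 ht.2
      have h3 := ((continuousAt_igd k h0.1 h1.1 z0).tendsto.comp t0).add
        ((continuousAt_igd k h0.1 h1.1 z1).tendsto.comp t1)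
      have h4 : igd k (insert m B) b x (seg g₀ g₁ σ) t + igd k B b x (seg g₀ g₁ σ) t =
          (Ioi a).indicator (fun t => 2 * igd k B b x (seg g₀ g₁ σ) t) t := by
        rcases lt_or_gt_of_ne ht.2 with h5 | h5
        · rw [indicator_of_notMem (by simp only [mem_Ioi, not_lt]; exact h5.le)]
          unfold igd
          rw [sq_insert_left hm (z := gam x (seg g₀ g₁ σ) t) (by
            rw [gam_re]
            have : t < (b m).re - x.re := by rw [← sub_re]; exact h5
            linarith), div_neg, neg_mul, neg_add_cancel]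
        · rw [indicator_of_mem (show t ∈ Ioi a from h5)]
          unfold igd
          rw [sq_insert_right hm (z := gam x (seg g₀ g₁ σ) t) (by
            rw [gam_re]
            have : (b m).re - x.re < t := by rw [← sub_re]; exact h5
            linarith)]
          ring
      rw [← h4]
      exact h3
  have hval : -(P k (insert m B) b x + P k B b x) =
      ∫ t in Ioi (0 : ℝ), (Ioi a).indicator (fun t => 2 * igd k B b x (seg g₀ g₁ σ) t) t := by
    refine tendsto_nhds_unique ?_ hlim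
    simp only [hconst]
    exact tendsto_const_nhds
  -- the path from `b m`
  set h : ℝ → ℝ := fun u => seg g₀ g₁ σ (u + a) - y with hh
  have hsh : ∀ u, deriv h u = deriv (seg g₀ g₁ σ) (u + a) := by
    intro u
    rw [hh, deriv_sub_const, deriv_comp_add_const]
  have hAh : Adm B b (b m) h := by
    refine ⟨⟨?_, ?_, ?_⟩, fun l hlm hlr => ?_⟩
    · exact ((hP σ).smooth.comp (contDiff_id.add contDiff_const)).sub contDiff_const
    · show seg g₀ g₁ σ (0 + a) - y = 0
      rw [zero_add, hσe, sub_self]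
    · exact ⟨K, fun u => by rw [hsh]; exact hKs σ ⟨hσ0.le, hσ1.le⟩ _⟩
    · have hlm' : l ≠ m := fun h3 => hlm (by rw [h3])
      have e1 : (b l - b m).re + a = (b l - x).re := by rw [ha, sub_re, sub_re, sub_re]; ring
      have e2 : (b l - b m).im + y = (b l - x).im := by rw [hy, sub_im, sub_im, sub_im]; ring
      have hlx : b l ≠ x := by
        intro h3
        have e4 : (b l - x).re = 0 := by rw [h3, sub_self, zero_re]
        linarith
      obtain ⟨f1, f2⟩ := hl σ ⟨hσ0.le, hσ1.le⟩ l hlm' hlx (by rw [← e1]; linarith)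
      show (l ∈ B → seg g₀ g₁ σ ((b l - b m).re + a) - y < (b l - b m).im) ∧
        (l ∉ B → (b l - b m).im < seg g₀ g₁ σ ((b l - b m).re + a) - y)
      rw [e1]
      exact ⟨fun h3 => by linarith [f1 h3], fun h3 => by linarith [f2 h3]⟩
  have hgam : ∀ u, gam x (seg g₀ g₁ σ) (u + a) = gam (b m) h u := by
    intro u
    apply Complex.ext
    · rw [gam_re, gam_re, ha, sub_re]; ring
    · rw [gam_im, gam_im, hh, hy, sub_im]; ring
  have hPm : P k B b (b m) = -∫ t in Ioi a, igd k B b x (seg g₀ g₁ σ) t := by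
    rw [P_eq hI hk hb hAh]
    unfold PG
    congr 1
    have e : ∀ u, igd k B b (b m) h u = igd k B b x (seg g₀ g₁ σ) (u + a) := by
      intro u
      unfold igd
      rw [hsh, hgam]
    simp only [e]
    have h3 := (measurePreserving_add_right volume a).setIntegral_preimage_emb
      (measurableEmbedding_addRight a) (igd k B b x (seg g₀ g₁ σ)) (Ioi a)
    rw [← h3]
    congr 1
    congr 1
    ext u
    simp
  rw [setIntegral_indicator measurableSet_Ioi] at hval
  have e3 : Ioi (0 : ℝ) ∩ Ioi a = Ioi a := inter_eq_right.2 (Ioi_subset_Ioi ha0.le)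
  rw [e3, integral_const_mul] at hval
  rw [hPm]
  linear_combination -hval

end

end Vale.Agent.P273.H965
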